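import Vale.Agent.Lib.P335.BridgeDefs
import Vale.Agent.Lib.P335.helper26.Abstract

/-!
Graph-side operators for P335 (general degree vectors).

* `gmask S G` : the graph `G - S` (all edges of `G` with an end in `S` removed).
* `GR S` : resampling of the vertices of `S` given the rest, i.e. the conditional
  expectation (uniform measure on `Omega n d`) given `G - S`.
-/

namespace Vale.Agent.Lib.P335.Gr

open Finset
open scoped Classical
open Vale.Agent.Lib.P335 Vale.Agent.Lib.P335.Bip

/-- The graph `G - S`: all edges of `G` with an end in the vertex set `S` are removed. -/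
def gmask {n : ℕ} (S : Finset (Fin n)) (G : SimpleGraph (Fin n)) : SimpleGraph (Fin n) where
  Adj a b := a ∉ S ∧ b ∉ S ∧ G.Adj a b
  symm := ⟨fun _ _ h => ⟨h.2.1, h.1, h.2.2.symm⟩⟩
  loopless := ⟨fun a h => G.loopless.irrefl a h.2.2⟩

theorem gmask_adj {n : ℕ} (S : Finset (Fin n)) (G : SimpleGraph (Fin n)) (a b : Fin n) :
    (gmask S G).Adj a b ↔ a ∉ S ∧ b ∉ S ∧ G.Adj a b := Iff.rfl

theorem gmask_eq_iff {n : ℕ} (S : Finset (Fin n)) (G G' : SimpleGraph (Fin n)) :
    gmask S G = gmask S G' ↔ ∀ a b, a ∉ S → b ∉ S → (G.Adj a b ↔ G'.Adj a b) := by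
  constructor
  · intro h a b ha hb
    have h1 : (gmask S G).Adj a b ↔ (gmask S G').Adj a b := by rw [h]
    rw [gmask_adj, gmask_adj] at h1
    constructor
    · intro hG
      exact (h1.mp ⟨ha, hb, hG⟩).2.2
    · intro hG
      exact (h1.mpr ⟨ha, hb, hG⟩).2.2
  · intro h
    ext a b
    rw [gmask_adj, gmask_adj]
    constructor
    · rintro ⟨ha, hb, hG⟩
      exact ⟨ha, hb, (h a b ha hb).mp hG⟩
    · rintro ⟨ha, hb, hG⟩
      exact ⟨ha, hb, (h a b ha hb).mpr hG⟩

/-- `G - T` is a function of `G - S` when `S ⊆ T`. -/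
theorem gmask_mono {n : ℕ} {S T : Finset (Fin n)} (hST : S ⊆ T) {G G' : SimpleGraph (Fin n)}
    (h : gmask S G = gmask S G') : gmask T G = gmask T G' := by
  rw [gmask_eq_iff] at h ⊢
  intro a b ha hb
  exact h a b (fun hS => ha (hST hS)) (fun hS => hb (hST hS))

/-- Resampling the vertices of `S` uniformly given the rest of the graph:
the conditional expectation given `G - S`. -/
noncomputable def GR {n : ℕ} {d : Fin n → ℕ} (S : Finset (Fin n)) :
    (Omega n d → ℝ) →ₗ[ℝ] (Omega n d → ℝ) :=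
  cexp (fun G : Omega n d => gmask S G.1)

theorem GR_apply {n : ℕ} {d : Fin n → ℕ} (S : Finset (Fin n)) (f : Omega n d → ℝ)
    (G : Omega n d) :
    GR S f G = (∑ G' ∈ univ.filter (fun G' : Omega n d => gmask S G'.1 = gmask S G.1), f G') /
      ((univ.filter (fun G' : Omega n d => gmask S G'.1 = gmask S G.1)).card : ℝ) := rfl

theorem GR_symm {n : ℕ} {d : Fin n → ℕ} (S : Finset (Fin n)) (f g : Omega n d → ℝ) :
    ip f (GR S g) = ip (GR S f) g := cexp_symm _ f g

theorem GR_idem {n : ℕ} {d : Fin n → ℕ} (S : Finset (Fin n)) (f : Omega n d → ℝ) :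
    GR S (GR S f) = GR S f := cexp_idem _ f

/-- Tower property: for `S ⊆ T`, resampling `S` does not change a function of `G - T`. -/
theorem GR_tower {n : ℕ} {d : Fin n → ℕ} {S T : Finset (Fin n)} (hST : S ⊆ T)
    (f : Omega n d → ℝ) : GR S (GR T f) = GR T f :=
  cexp_tower' _ _ (fun _ _ h => gmask_mono hST h) f

/-- Tower property, other order. -/
theorem GR_tower_left {n : ℕ} {d : Fin n → ℕ} {S T : Finset (Fin n)} (hST : S ⊆ T)
    (f : Omega n d → ℝ) : GR T (GR S f) = GR T f :=
  cexp_tower _ _ (fun _ _ h => gmask_mono hST h) f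

end Vale.Agent.Lib.P335.Gr
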