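import Vale.Agent.Lib.P335.helper72.GSwitchBridge

/-!
# P335 (helper72): switch-connectivity of the graphs with a prescribed degree vector

Any two graphs of `Omega n d` are joined by a chain of switches (`GSwitch`); hence a function on
`Omega n d` that is invariant under switches is constant.
-/

namespace Vale.Agent.Lib.P335.H72

open Finset
open scoped Classical
open Vale.Agent.Lib.P335 Vale.Agent.Lib.P335.Bridge

variable {n : ℕ}

/-- Adjacency in the graph obtained by removing `ab, ce` and inserting `ac, be`. -/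
theorem gsw_adj (G : SimpleGraph (Fin n)) (a b c e x y : Fin n) :
    (SimpleGraph.fromEdgeSet ((G.edgeSet \ {s(a, b), s(c, e)}) ∪ {s(a, c), s(b, e)})).Adj x y ↔
      ((G.Adj x y ∧ s(x, y) ≠ s(a, b) ∧ s(x, y) ≠ s(c, e)) ∨ s(x, y) = s(a, c) ∨
        s(x, y) = s(b, e)) ∧ x ≠ y := by
  rw [SimpleGraph.fromEdgeSet_adj]
  simp only [Set.mem_union, Set.mem_sdiff, Set.mem_insert_iff, Set.mem_singleton_iff,
    SimpleGraph.mem_edgeSet, not_or]

/-- The graph of a graph-side switch is the result of the chain's switch along the two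
matchings. -/
theorem gsw_eq_switch (G : SimpleGraph (Fin n)) {a b c e : Fin n}
    (h1 : G.Adj a b) (h2 : G.Adj c e) (h3 : ¬ G.Adj a c) (h4 : ¬ G.Adj b e) :
    SimpleGraph.fromEdgeSet ((G.edgeSet \ {s(a, b), s(c, e)}) ∪ {s(a, c), s(b, e)}) =
      switch G ({s(a, b), s(c, e)} : Finset (Sym2 (Fin n)))
        ({s(a, c), s(b, e)} : Finset (Sym2 (Fin n))) := by
  have hc : (∀ f ∈ ({s(a, b), s(c, e)} : Finset (Sym2 (Fin n))), f ∈ G.edgeSet) ∧
      (∀ f ∈ ({s(a, c), s(b, e)} : Finset (Sym2 (Fin n))), f ∉ G.edgeSet) := by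
    constructor
    · intro f hf
      simp only [Finset.mem_insert, Finset.mem_singleton] at hf
      rcases hf with rfl | rfl
      · exact (SimpleGraph.mem_edgeSet _).mpr h1
      · exact (SimpleGraph.mem_edgeSet _).mpr h2
    · intro f hf
      simp only [Finset.mem_insert, Finset.mem_singleton] at hf
      rcases hf with rfl | rfl
      · exact fun h => h3 ((SimpleGraph.mem_edgeSet _).mp h)
      · exact fun h => h4 ((SimpleGraph.mem_edgeSet _).mp h)
  rw [switch_pos hc]
  congr 2
  · congr 1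
    ext f; simp
  · ext f; simp

/-- A graph-side switch preserves every degree. -/
theorem gswitch_degree {G G' : SimpleGraph (Fin n)} (h : GSwitch G G') (v : Fin n) :
    G'.degree v = G.degree v := by
  obtain ⟨a, b, c, e, hab, hac, hae, hbc, hbe, hce, h1, h2, h3, h4, rfl⟩ := h
  rw [gsw_eq_switch G h1 h2 h3 h4]
  exact switch_degree G (S := {a, b, c, e})
    (pm_mem (by intro v; simp) hab hac hae hbc hbe hce)
    (pm_mem (by
      intro v; simp only [Finset.mem_insert, Finset.mem_singleton]
      constructor <;> rintro (h | h | h | h) <;> simp [h]) hac hab hae hbc.symm hce hbe) v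

/-- The graph-side switch relation is symmetric. -/
theorem gswitch_symm {G G' : SimpleGraph (Fin n)} (h : GSwitch G G') : GSwitch G' G := by
  obtain ⟨a, b, c, e, hab, hac, hae, hbc, hbe, hce, h1, h2, h3, h4, rfl⟩ := h
  have hE1 : s(a, b) ∈ G.edgeSet := (SimpleGraph.mem_edgeSet _).mpr h1
  have hE2 : s(c, e) ∈ G.edgeSet := (SimpleGraph.mem_edgeSet _).mpr h2
  have hE3 : s(a, c) ∉ G.edgeSet := fun h => h3 ((SimpleGraph.mem_edgeSet _).mp h)
  have hE4 : s(b, e) ∉ G.edgeSet := fun h => h4 ((SimpleGraph.mem_edgeSet _).mp h)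
  have n1 : s(a, b) ≠ s(a, c) := fun h => hE3 (h ▸ hE1)
  have n2 : s(a, b) ≠ s(b, e) := fun h => hE4 (h ▸ hE1)
  have n3 : s(c, e) ≠ s(a, c) := fun h => hE3 (h ▸ hE2)
  have n4 : s(c, e) ≠ s(b, e) := fun h => hE4 (h ▸ hE2)
  refine ⟨a, c, b, e, hac, hab, hae, hbc.symm, hce, hbe, ?_, ?_, ?_, ?_, ?_⟩
  · rw [gsw_adj]; exact ⟨Or.inr (Or.inl rfl), hac⟩
  · rw [gsw_adj]; exact ⟨Or.inr (Or.inr rfl), hbe⟩
  · rw [gsw_adj]
    rintro ⟨(⟨_, h, _⟩ | h | h), _⟩
    · exact h rfl
    · exact n1 h
    · exact n2 h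
  · rw [gsw_adj]
    rintro ⟨(⟨_, _, h⟩ | h | h), _⟩
    · exact h rfl
    · exact n3 h
    · exact n4 h
  · ext x y
    rw [gsw_adj]
    have hxy : G.Adj x y ↔ s(x, y) ∈ G.edgeSet := (SimpleGraph.mem_edgeSet _).symm
    constructor
    · intro hadj
      refine ⟨?_, G.ne_of_adj hadj⟩
      by_cases e1 : s(x, y) = s(a, b)
      · exact Or.inr (Or.inl e1)
      · by_cases e2 : s(x, y) = s(c, e)
        · exact Or.inr (Or.inr e2)
        · left
          refine ⟨?_, fun e3 => hE3 (e3 ▸ hxy.mp hadj), fun e3 => hE4 (e3 ▸ hxy.mp hadj)⟩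
          rw [gsw_adj]
          exact ⟨Or.inl ⟨hadj, e1, e2⟩, G.ne_of_adj hadj⟩
    · rintro ⟨(⟨hadj, e1, e2⟩ | e1 | e1), _⟩
      · rw [gsw_adj] at hadj
        rcases hadj.1 with ⟨h, _, _⟩ | h | h
        · exact h
        · exact absurd h e1
        · exact absurd h e2
      · rw [hxy, e1]; exact hE1
      · rw [hxy, e1]; exact hE2

/-- Adjacency at the first vertex of a switch. -/
theorem gsw_adj_first (G : SimpleGraph (Fin n)) {a b c e : Fin n} (hab : a ≠ b) (hac : a ≠ c)
    (hae : a ≠ e) (y : Fin n) :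
    (SimpleGraph.fromEdgeSet ((G.edgeSet \ {s(a, b), s(c, e)}) ∪ {s(a, c), s(b, e)})).Adj a y ↔
      (G.Adj a y ∧ y ≠ b) ∨ y = c := by
  rw [gsw_adj]
  have e1 : s(a, y) = s(a, b) ↔ y = b := by
    rw [Sym2.eq_iff]
    constructor
    · rintro (⟨_, h⟩ | ⟨h, _⟩)
      · exact h
      · exact absurd h hab
    · intro h; exact Or.inl ⟨rfl, h⟩
  have e2 : ¬ s(a, y) = s(c, e) := by
    rw [Sym2.eq_iff]
    rintro (⟨h, _⟩ | ⟨h, _⟩)
    · exact hac h
    · exact hae h
  have e3 : s(a, y) = s(a, c) ↔ y = c := by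
    rw [Sym2.eq_iff]
    constructor
    · rintro (⟨_, h⟩ | ⟨h, _⟩)
      · exact h
      · exact absurd h hac
    · intro h; exact Or.inl ⟨rfl, h⟩
  have e4 : ¬ s(a, y) = s(b, e) := by
    rw [Sym2.eq_iff]
    rintro (⟨h, _⟩ | ⟨h, _⟩)
    · exact hab h
    · exact hae h
  constructor
  · rintro ⟨(⟨h1, h2, _⟩ | h | h), _⟩
    · exact Or.inl ⟨h1, fun h => h2 (e1.mpr h)⟩
    · exact Or.inr (e3.mp h)
    · exact absurd h e4
  · rintro (⟨h1, h2⟩ | h)
    · exact ⟨Or.inl ⟨h1, fun h => h2 (e1.mp h), e2⟩, G.ne_of_adj h1⟩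
    · exact ⟨Or.inr (Or.inl (e3.mpr h)), fun h' => hac (h'.trans h)⟩

/-- Adjacency at a vertex not involved in a switch is unchanged. -/
theorem gsw_adj_other (G : SimpleGraph (Fin n)) {a b c e x : Fin n} (hxa : x ≠ a) (hxb : x ≠ b)
    (hxc : x ≠ c) (hxe : x ≠ e) (y : Fin n) :
    (SimpleGraph.fromEdgeSet ((G.edgeSet \ {s(a, b), s(c, e)}) ∪ {s(a, c), s(b, e)})).Adj x y ↔
      G.Adj x y := by
  rw [gsw_adj]
  have key : ∀ p q : Fin n, x ≠ p → x ≠ q → ¬ s(x, y) = s(p, q) := by
    intro p q hp hq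
    rw [Sym2.eq_iff]
    rintro (⟨h, _⟩ | ⟨h, _⟩)
    · exact hp h
    · exact hq h
  constructor
  · rintro ⟨(⟨h1, _, _⟩ | h | h), _⟩
    · exact h1
    · exact absurd h (key a c hxa hxc)
    · exact absurd h (key b e hxb hxe)
  · intro h
    exact ⟨Or.inl ⟨h, key a b hxa hxb, key c e hxc hxe⟩, G.ne_of_adj h⟩

/-- The neighbours of `v`, as a filter. -/
noncomputable def nbr (Z : SimpleGraph (Fin n)) (v : Fin n) : Finset (Fin n) :=
  Finset.univ.filter (fun y => Z.Adj v y)

theorem mem_nbr (Z : SimpleGraph (Fin n)) (v y : Fin n) : y ∈ nbr Z v ↔ Z.Adj v y := by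
  unfold nbr; simp

theorem card_nbr (Z : SimpleGraph (Fin n)) (v : Fin n) : (nbr Z v).card = Z.degree v := by
  rw [← SimpleGraph.card_neighborFinset_eq_degree]
  congr 1
  ext y
  rw [mem_nbr, SimpleGraph.mem_neighborFinset]

/-- The degree as an integer sum of indicators. -/
theorem deg_sum (Z : SimpleGraph (Fin n)) (v : Fin n) :
    (Z.degree v : ℤ) = ∑ a : Fin n, (if Z.Adj a v then (1 : ℤ) else 0) := by
  rw [← card_nbr]
  unfold nbr
  rw [Finset.card_filter]
  push_cast
  refine Finset.sum_congr rfl fun a _ => ?_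
  simp only [SimpleGraph.adj_comm]

/-- Counting step for graphs. -/
theorem exists_vertex (G G' : SimpleGraph (Fin n)) (hdeg : ∀ v, G.degree v = G'.degree v)
    (k : Fin n) (hag : ∀ a : Fin n, a < k → ∀ b, G.Adj a b ↔ G'.Adj a b) {j j' : Fin n}
    (h1 : G.Adj k j) (h2 : ¬ G'.Adj k j) (h3 : G'.Adj k j') (h4 : ¬ G.Adj k j') :
    (∃ a, k < a ∧ a ≠ j ∧ a ≠ j' ∧ G.Adj a j' ∧ ¬ G.Adj a j) ∨
      (∃ a, k < a ∧ a ≠ j ∧ a ≠ j' ∧ G'.Adj a j ∧ ¬ G'.Adj a j') := by
  by_contra hcon
  rw [not_or] at hcon
  obtain ⟨hA0, hB0⟩ := hcon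
  have hA : ∀ a, k < a → a ≠ j → a ≠ j' → G.Adj a j' → G.Adj a j := by
    intro a e1 e2 e3 e4
    by_contra e5
    exact hA0 ⟨a, e1, e2, e3, e4, e5⟩
  have hB : ∀ a, k < a → a ≠ j → a ≠ j' → G'.Adj a j → G'.Adj a j' := by
    intro a e1 e2 e3 e4
    by_contra e5
    exact hB0 ⟨a, e1, e2, e3, e4, e5⟩
  have hkj : k ≠ j := G.ne_of_adj h1
  have hkj' : k ≠ j' := G'.ne_of_adj h3
  have hjj' : j ≠ j' := fun h => h4 (h ▸ h1)
  set F : Fin n → ℤ := fun a =>
    ((if G.Adj a j then (1 : ℤ) else 0) - (if G.Adj a j' then (1 : ℤ) else 0))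
      - ((if G'.Adj a j then (1 : ℤ) else 0) - (if G'.Adj a j' then (1 : ℤ) else 0)) with hF
  have hsum : ∑ a : Fin n, F a = 0 := by
    simp only [hF, Finset.sum_sub_distrib]
    rw [← deg_sum, ← deg_sum, ← deg_sum, ← deg_sum, hdeg j, hdeg j']
    ring
  have hsplit : ∑ a : Fin n, F a =
      F j + (F j' + ∑ a ∈ (Finset.univ.erase j).erase j', F a) := by
    rw [Finset.add_sum_erase _ F (Finset.mem_erase.mpr ⟨hjj'.symm, Finset.mem_univ _⟩),
      Finset.add_sum_erase _ F (Finset.mem_univ j)]
  have hFj : F j + F j' = 0 := by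
    simp only [hF, SimpleGraph.irrefl, if_false]
    rw [G.adj_comm j' j, G'.adj_comm j' j]
    ring
  have hS : ∑ a ∈ (Finset.univ.erase j).erase j', F a = 0 := by
    have := hsum
    rw [hsplit] at this
    linarith
  have hnn : ∀ a ∈ (Finset.univ.erase j).erase j', 0 ≤ F a := by
    intro a ha
    have haj' : a ≠ j' := (Finset.mem_erase.mp ha).1
    have haj : a ≠ j := (Finset.mem_erase.mp (Finset.mem_erase.mp ha).2).1
    rcases lt_trichotomy a k with h | h | h
    · simp only [hF]
      rw [hag a h j, hag a h j']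
      simp
    · subst h
      simp [hF, h1, h2, h3, h4]
    · have hA' := hA a h haj haj'
      have hB' := hB a h haj haj'
      simp only [hF]
      by_cases e1 : G.Adj a j'
      · have e2 := hA' e1
        by_cases e3 : G'.Adj a j
        · have e4 := hB' e3
          simp [e1, e2, e3, e4]
        · by_cases e4 : G'.Adj a j' <;> simp [e1, e2, e3, e4]
      · by_cases e3 : G'.Adj a j
        · have e4 := hB' e3
          by_cases e2 : G.Adj a j <;> simp [e1, e2, e3, e4]
        · by_cases e2 : G.Adj a j <;> by_cases e4 : G'.Adj a j' <;> simp [e1, e2, e3, e4]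
  have hkS : k ∈ (Finset.univ.erase j).erase j' :=
    Finset.mem_erase.mpr ⟨hkj', Finset.mem_erase.mpr ⟨hkj, Finset.mem_univ _⟩⟩
  have hk := Finset.single_le_sum hnn hkS
  rw [hS] at hk
  simp [hF, h1, h2, h3, h4] at hk

/-- The result of a graph-side switch on a graph of `Omega n d` has the degree vector `d`. -/
theorem gsw_mem {d : Fin n → ℕ} (G : Omega n d) {G1 : SimpleGraph (Fin n)}
    (h : GSwitch G.1 G1) : ∀ v, G1.degree v = d v :=
  fun v => by rw [gswitch_degree h v]; exact G.2 v

/-- Two graphs of `Omega n d` are connected if a chain of switches leads from one to the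
other. -/
def GConn {d : Fin n → ℕ} (G G' : Omega n d) : Prop :=
  Relation.ReflTransGen (fun A B : Omega n d => GSwitch A.1 B.1) G G'

theorem gconn_of_agree {d : Fin n → ℕ} :
    ∀ (t k : ℕ), k + t = n → ∀ G G' : Omega n d,
      (∀ a : Fin n, a.val < k → ∀ b, G.1.Adj a b ↔ G'.1.Adj a b) → GConn G G' := by
  intro t
  induction t with
  | zero =>
    intro k hk G G' hag
    have : G = G' := by
      apply Subtype.ext
      ext a b
      exact hag a (by have := a.isLt; omega) b
    rw [this]
    exact Relation.ReflTransGen.refl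
  | succ t ih =>
    intro k hk
    have hkn : k < n := by omega
    set kk : Fin n := ⟨k, hkn⟩ with hkk
    have key : ∀ s : ℕ, ∀ G G' : Omega n d,
        (∀ a : Fin n, a.val < k → ∀ b, G.1.Adj a b ↔ G'.1.Adj a b) →
        (nbr G.1 kk \ nbr G'.1 kk).card = s → GConn G G' := by
      intro s
      induction s with
      | zero =>
        intro G G' hag hs
        have hsub : nbr G.1 kk ⊆ nbr G'.1 kk :=
          Finset.sdiff_eq_empty_iff_subset.mp (Finset.card_eq_zero.mp hs)
        have heq : nbr G.1 kk = nbr G'.1 kk :=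
          Finset.eq_of_subset_of_card_le hsub (by rw [card_nbr, card_nbr, G.2 kk, G'.2 kk])
        apply ih (k + 1) (by omega) G G'
        intro a ha b
        rcases Nat.lt_succ_iff_lt_or_eq.mp ha with h | h
        · exact hag a h b
        · have : a = kk := Fin.ext h
          rw [this, ← mem_nbr, ← mem_nbr, heq]
      | succ s ihs =>
        intro G G' hag hs
        obtain ⟨j, hj⟩ := Finset.card_pos.mp (by omega : 0 < (nbr G.1 kk \ nbr G'.1 kk).card)
        have hjmem := hj
        rw [Finset.mem_sdiff, mem_nbr, mem_nbr] at hj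
        have hcard : (nbr G'.1 kk \ nbr G.1 kk).card = (nbr G.1 kk \ nbr G'.1 kk).card :=
          Finset.card_sdiff_comm (by rw [card_nbr, card_nbr, G.2 kk, G'.2 kk])
        obtain ⟨j', hj'⟩ := Finset.card_pos.mp (by omega : 0 < (nbr G'.1 kk \ nbr G.1 kk).card)
        rw [Finset.mem_sdiff, mem_nbr, mem_nbr] at hj'
        have hkj : kk ≠ j := G.1.ne_of_adj hj.1
        have hkj' : kk ≠ j' := G'.1.ne_of_adj hj'.1
        have hjj' : j ≠ j' := fun h => hj'.2 (h ▸ hj.1)
        -- vertices before `k` are none of `kk, j, j'`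
        have hxk : ∀ x : Fin n, x.val < k → x ≠ kk := fun x hx h => by
          rw [h] at hx; exact lt_irrefl _ hx
        have hxj : ∀ x : Fin n, x.val < k → x ≠ j := fun x hx h => by
          have := hag x hx kk
          rw [h] at this
          exact hj.2 (this.mp hj.1.symm).symm
        have hxj' : ∀ x : Fin n, x.val < k → x ≠ j' := fun x hx h => by
          have := hag x hx kk
          rw [h] at this
          exact hj'.2 (this.mpr hj'.1.symm).symm
        rcases exists_vertex G.1 G'.1 (fun v => by rw [G.2 v, G'.2 v]) kk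
            (fun a ha => hag a ha) hj.1 hj.2 hj'.1 hj'.2
          with ⟨a, hka, haj, haj', hA1, hA2⟩ | ⟨a, hka, haj, haj', hB1, hB2⟩
        · have hkka : kk ≠ a := ne_of_lt hka
          have hxa : ∀ x : Fin n, x.val < k → x ≠ a := fun x hx h => by
            rw [h] at hx
            have : kk.val < a.val := hka
            have : kk.val = k := rfl
            omega
          have hsw : GSwitch G.1 (SimpleGraph.fromEdgeSet
              ((G.1.edgeSet \ {s(kk, j), s(j', a)}) ∪ {s(kk, j'), s(j, a)})) :=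
            ⟨kk, j, j', a, hkj, hkj', hkka, hjj', haj.symm, haj'.symm, hj.1, hA1.symm,
              hj'.2, fun h => hA2 h.symm, rfl⟩
          have hag' : ∀ x : Fin n, x.val < k → ∀ b, (SimpleGraph.fromEdgeSet
              ((G.1.edgeSet \ {s(kk, j), s(j', a)}) ∪ {s(kk, j'), s(j, a)})).Adj x b ↔
              G'.1.Adj x b := by
            intro x hx b
            rw [gsw_adj_other G.1 (hxk x hx) (hxj x hx) (hxj' x hx) (hxa x hx)]
            exact hag x hx b
          have hs' : (nbr (SimpleGraph.fromEdgeSet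
              ((G.1.edgeSet \ {s(kk, j), s(j', a)}) ∪ {s(kk, j'), s(j, a)})) kk \
              nbr G'.1 kk).card = s := by
            have : nbr (SimpleGraph.fromEdgeSet
                ((G.1.edgeSet \ {s(kk, j), s(j', a)}) ∪ {s(kk, j'), s(j, a)})) kk \
                nbr G'.1 kk = (nbr G.1 kk \ nbr G'.1 kk).erase j := by
              ext y
              simp only [Finset.mem_sdiff, mem_nbr, Finset.mem_erase]
              rw [gsw_adj_first G.1 hkj hkj' hkka]
              constructor
              · rintro ⟨(⟨e1, e2⟩ | e1), e3⟩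
                · exact ⟨e2, e1, e3⟩
                · rw [e1] at e3; exact absurd hj'.1 e3
              · rintro ⟨e1, e2, e3⟩
                exact ⟨Or.inl ⟨e2, e1⟩, e3⟩
            rw [this, Finset.card_erase_of_mem hjmem, hs]
            rfl
          exact Relation.ReflTransGen.head (b := (⟨_, gsw_mem G hsw⟩ : Omega n d))
            hsw (ihs ⟨_, gsw_mem G hsw⟩ G' hag' hs')
        · have hkka : kk ≠ a := ne_of_lt hka
          have hxa : ∀ x : Fin n, x.val < k → x ≠ a := fun x hx h => by
            rw [h] at hx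
            have : kk.val < a.val := hka
            have : kk.val = k := rfl
            omega
          have hsw : GSwitch G'.1 (SimpleGraph.fromEdgeSet
              ((G'.1.edgeSet \ {s(kk, j'), s(j, a)}) ∪ {s(kk, j), s(j', a)})) :=
            ⟨kk, j', j, a, hkj', hkj, hkka, hjj'.symm, haj'.symm, haj.symm, hj'.1, hB1.symm,
              hj.2, fun h => hB2 h.symm, rfl⟩
          have hag' : ∀ x : Fin n, x.val < k → ∀ b, G.1.Adj x b ↔ (SimpleGraph.fromEdgeSet
              ((G'.1.edgeSet \ {s(kk, j'), s(j, a)}) ∪ {s(kk, j), s(j', a)})).Adj x b := by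
            intro x hx b
            rw [gsw_adj_other G'.1 (hxk x hx) (hxj' x hx) (hxj x hx) (hxa x hx)]
            exact hag x hx b
          have hs' : (nbr G.1 kk \ nbr (SimpleGraph.fromEdgeSet
              ((G'.1.edgeSet \ {s(kk, j'), s(j, a)}) ∪ {s(kk, j), s(j', a)})) kk).card = s := by
            have : nbr G.1 kk \ nbr (SimpleGraph.fromEdgeSet
                ((G'.1.edgeSet \ {s(kk, j'), s(j, a)}) ∪ {s(kk, j), s(j', a)})) kk
                = (nbr G.1 kk \ nbr G'.1 kk).erase j := by
              ext y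
              simp only [Finset.mem_sdiff, mem_nbr, Finset.mem_erase]
              rw [gsw_adj_first G'.1 hkj' hkj hkka]
              constructor
              · rintro ⟨e1, e2⟩
                refine ⟨fun e3 => e2 (Or.inr e3), e1, fun e3 => ?_⟩
                apply e2
                left
                refine ⟨e3, fun e4 => ?_⟩
                rw [e4] at e1
                exact hj'.2 e1
              · rintro ⟨e1, e2, e3⟩
                refine ⟨e2, ?_⟩
                rintro (⟨e4, _⟩ | e4)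
                · exact e3 e4
                · exact e1 e4
            rw [this, Finset.card_erase_of_mem hjmem, hs]
            rfl
          have hc1 : GConn G (⟨_, gsw_mem G' hsw⟩ : Omega n d) :=
            ihs G ⟨_, gsw_mem G' hsw⟩ hag' hs'
          exact hc1.trans (Relation.ReflTransGen.single (gswitch_symm hsw))
    intro G G' hag
    exact key _ G G' hag rfl

/-- **Switch-connectivity**: any two graphs with the same degree vector are joined by a chain
of switches. -/
theorem gconn {d : Fin n → ℕ} (G G' : Omega n d) : GConn G G' :=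
  gconn_of_agree n 0 (by omega) G G' (fun a ha => absurd ha (Nat.not_lt_zero _))

/-- A function on `Omega n d` that is invariant under switches is constant. -/
theorem const_of_gswitch_invariant {d : Fin n → ℕ} {α : Type*} (f : Omega n d → α)
    (h : ∀ G G' : Omega n d, GSwitch G.1 G'.1 → f G = f G') (G G' : Omega n d) :
    f G = f G' := by
  have := gconn G G'
  unfold GConn at this
  induction this with
  | refl => rfl
  | tail _ hbc ih => exact ih.trans (h _ _ hbc)

end Vale.Agent.Lib.P335.H72
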