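import Mathlib

/-!
# P335, chain-side glue (helper72), part 1: from a Poincare inequality to total variation decay

For a symmetric, lazy, stochastic real matrix `P` on a finite type `X` satisfying a Poincare
inequality with constant `γ` on mean-zero functions, the `t`-step distribution from any start is
within one half times sqrt |X| times the t-th power of 1-γ of uniform in total variation.
-/

namespace Vale.Agent.Lib.P335.H72

open Finset Matrix

variable {X : Type*} [Fintype X]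

/-- The bilinear form `⟨f, P g⟩`. -/
def qf (P : Matrix X X ℝ) (f g : X → ℝ) : ℝ := ∑ x, f x * (P.mulVec g) x

theorem qf_eq (P : Matrix X X ℝ) (f g : X → ℝ) :
    qf P f g = ∑ x, ∑ y, P x y * f x * g y := by
  unfold qf
  refine Finset.sum_congr rfl fun x _ => ?_
  simp only [Matrix.mulVec, dotProduct, Finset.mul_sum]
  refine Finset.sum_congr rfl fun y _ => ?_
  ring

theorem qf_symm (P : Matrix X X ℝ) (hsymm : ∀ x y, P x y = P y x) (f g : X → ℝ) :
    qf P f g = qf P g f := by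
  rw [qf_eq, qf_eq, Finset.sum_comm]
  refine Finset.sum_congr rfl fun x _ => Finset.sum_congr rfl fun y _ => ?_
  rw [hsymm y x]; ring

theorem qf_add_left (P : Matrix X X ℝ) (f g h : X → ℝ) :
    qf P (f + g) h = qf P f h + qf P g h := by
  unfold qf
  rw [← Finset.sum_add_distrib]
  refine Finset.sum_congr rfl fun x _ => ?_
  simp only [Pi.add_apply]; ring

theorem qf_add_right (P : Matrix X X ℝ) (f g h : X → ℝ) :
    qf P f (g + h) = qf P f g + qf P f h := by
  unfold qf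
  rw [← Finset.sum_add_distrib]
  refine Finset.sum_congr rfl fun x _ => ?_
  rw [Matrix.mulVec_add]; simp only [Pi.add_apply]; ring

theorem qf_smul_left (P : Matrix X X ℝ) (s : ℝ) (f h : X → ℝ) :
    qf P (s • f) h = s * qf P f h := by
  unfold qf
  rw [Finset.mul_sum]
  refine Finset.sum_congr rfl fun x _ => ?_
  simp only [Pi.smul_apply, smul_eq_mul]; ring

theorem qf_smul_right (P : Matrix X X ℝ) (s : ℝ) (f h : X → ℝ) :
    qf P f (s • h) = s * qf P f h := by
  unfold qf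
  rw [Finset.mul_sum]
  refine Finset.sum_congr rfl fun x _ => ?_
  rw [Matrix.mulVec_smul]; simp only [Pi.smul_apply, smul_eq_mul]; ring

/-- A lazy symmetric stochastic matrix is positive semidefinite. -/
theorem qf_nonneg [DecidableEq X] (P : Matrix X X ℝ) (hsymm : ∀ x y, P x y = P y x)
    (hnn : ∀ x y, 0 ≤ P x y) (hrow : ∀ x, ∑ y, P x y = 1) (hlazy : ∀ x, 1 / 2 ≤ P x x)
    (f : X → ℝ) : 0 ≤ qf P f f := by
  have key : 4 * qf P f f =
      ∑ x, ∑ y, (2 * P x y - (if x = y then (1 : ℝ) else 0)) * (f x + f y) ^ 2 := by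
    have h1 : ∑ x, ∑ y, (2 * P x y - (if x = y then (1 : ℝ) else 0)) * (f x + f y) ^ 2
        = ∑ x, ∑ y, (2 * (P x y * f x ^ 2) + 2 * (P x y * f y ^ 2) + 4 * (P x y * f x * f y)
            - (if x = y then (1 : ℝ) else 0) * (f x + f y) ^ 2) := by
      refine Finset.sum_congr rfl fun x _ => Finset.sum_congr rfl fun y _ => ?_
      ring
    rw [h1]
    simp only [Finset.sum_sub_distrib, Finset.sum_add_distrib, ← Finset.mul_sum]
    have h2 : ∑ x, ∑ y, P x y * f x ^ 2 = ∑ x, f x ^ 2 := by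
      refine Finset.sum_congr rfl fun x _ => ?_
      rw [← Finset.sum_mul, hrow x, one_mul]
    have h3 : ∑ x, ∑ y, P x y * f y ^ 2 = ∑ x, f x ^ 2 := by
      rw [Finset.sum_comm]
      refine Finset.sum_congr rfl fun y _ => ?_
      rw [← Finset.sum_mul]
      have : ∑ x, P x y = 1 := by
        rw [← hrow y]; exact Finset.sum_congr rfl fun x _ => hsymm x y
      rw [this, one_mul]
    have h4 : ∑ x, ∑ y, (if x = y then (1 : ℝ) else 0) * (f x + f y) ^ 2 = 4 * ∑ x, f x ^ 2 := by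
      rw [Finset.mul_sum]
      refine Finset.sum_congr rfl fun x _ => ?_
      simp only [ite_mul, one_mul, zero_mul, Finset.sum_ite_eq, Finset.mem_univ, if_true]
      ring
    rw [h2, h3, h4, qf_eq]
    ring
  have hpos : 0 ≤ ∑ x, ∑ y, (2 * P x y - (if x = y then (1 : ℝ) else 0)) * (f x + f y) ^ 2 := by
    refine Finset.sum_nonneg fun x _ => Finset.sum_nonneg fun y _ => ?_
    refine mul_nonneg ?_ (sq_nonneg _)
    by_cases hxy : x = y
    · subst hxy; simp only [if_true]; linarith [hlazy x]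
    · simp only [if_neg hxy]; linarith [hnn x y]
  linarith

/-- Cauchy-Schwarz for the positive semidefinite form `qf P`. -/
theorem qf_cauchy (P : Matrix X X ℝ) (hsymm : ∀ x y, P x y = P y x)
    (hpsd : ∀ f : X → ℝ, 0 ≤ qf P f f) (f g : X → ℝ) :
    qf P f g ^ 2 ≤ qf P f f * qf P g g := by
  have h : ∀ s : ℝ, 0 ≤ qf P g g * (s * s) + 2 * qf P f g * s + qf P f f := by
    intro s
    have := hpsd (f + s • g)
    rw [qf_add_left, qf_add_right, qf_add_right, qf_smul_left, qf_smul_left, qf_smul_right,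
      qf_smul_right, qf_symm P hsymm g f] at this
    linarith
  have hd := discrim_le_zero h
  unfold discrim at hd
  nlinarith

/-- `P` preserves sums (column sums are one). -/
theorem sum_mulVec (P : Matrix X X ℝ) (hsymm : ∀ x y, P x y = P y x)
    (hrow : ∀ x, ∑ y, P x y = 1) (f : X → ℝ) : ∑ x, (P.mulVec f) x = ∑ x, f x := by
  simp only [Matrix.mulVec, dotProduct]
  rw [Finset.sum_comm]
  refine Finset.sum_congr rfl fun y _ => ?_
  rw [← Finset.sum_mul]
  have : ∑ x, P x y = 1 := by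
    rw [← hrow y]; exact Finset.sum_congr rfl fun x _ => hsymm x y
  rw [this, one_mul]

/-- One-step contraction on mean-zero functions. -/
theorem contraction [DecidableEq X] (P : Matrix X X ℝ) (hsymm : ∀ x y, P x y = P y x)
    (hnn : ∀ x y, 0 ≤ P x y) (hrow : ∀ x, ∑ y, P x y = 1) (hlazy : ∀ x, 1 / 2 ≤ P x x)
    (γ : ℝ) (hγ1 : γ ≤ 1)
    (hgap : ∀ f : X → ℝ, ∑ x, f x = 0 → γ * ∑ x, f x ^ 2 ≤ ∑ x, f x * (f x - (P.mulVec f) x))
    (f : X → ℝ) (hf : ∑ x, f x = 0) :
    ∑ x, (P.mulVec f) x ^ 2 ≤ (1 - γ) ^ 2 * ∑ x, f x ^ 2 := by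
  have hpsd := qf_nonneg P hsymm hnn hrow hlazy
  set g := P.mulVec f with hg
  have hgm : ∑ x, g x = 0 := by rw [hg, sum_mulVec P hsymm hrow, hf]
  -- Poincare in the form qf P f f ≤ (1-γ) |f|^2
  have hP : ∀ h : X → ℝ, ∑ x, h x = 0 → qf P h h ≤ (1 - γ) * ∑ x, h x ^ 2 := by
    intro h hh
    have := hgap h hh
    have e : ∑ x, h x * (h x - (P.mulVec h) x) = ∑ x, h x ^ 2 - qf P h h := by
      unfold qf
      rw [← Finset.sum_sub_distrib]
      refine Finset.sum_congr rfl fun x _ => ?_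
      ring
    rw [e] at this
    linarith
  have hgg : ∑ x, g x ^ 2 = qf P g f := by
    unfold qf
    refine Finset.sum_congr rfl fun x _ => ?_
    rw [hg]; ring
  have hcs := qf_cauchy P hsymm hpsd g f
  have h1 := hP f hf
  have h2 := hP g hgm
  have hf0 : 0 ≤ ∑ x, f x ^ 2 := Finset.sum_nonneg fun x _ => sq_nonneg _
  have hg0 : 0 ≤ ∑ x, g x ^ 2 := Finset.sum_nonneg fun x _ => sq_nonneg _
  have hγ : 0 ≤ 1 - γ := by linarith
  -- (|g|^2)^2 ≤ qf g g * qf f f ≤ (1-γ)^2 |g|^2 |f|^2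
  have h3 : (∑ x, g x ^ 2) ^ 2 ≤ ((1 - γ) * ∑ x, g x ^ 2) * ((1 - γ) * ∑ x, f x ^ 2) := by
    have h4 : qf P g f ^ 2 ≤ ((1 - γ) * ∑ x, g x ^ 2) * ((1 - γ) * ∑ x, f x ^ 2) :=
      le_trans hcs (mul_le_mul h2 h1 (hpsd f) (mul_nonneg hγ hg0))
    rw [← hgg] at h4
    exact h4
  by_cases hz : ∑ x, g x ^ 2 = 0
  · rw [hz]; positivity
  · have hpos : 0 < ∑ x, g x ^ 2 := lt_of_le_of_ne hg0 (Ne.symm hz)
    have : (∑ x, g x ^ 2) * (∑ x, g x ^ 2) ≤ (∑ x, g x ^ 2) * ((1 - γ) ^ 2 * ∑ x, f x ^ 2) := by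
      nlinarith
    exact le_of_mul_le_mul_left this hpos

/-- Iterated contraction. -/
theorem contraction_pow [DecidableEq X] (P : Matrix X X ℝ) (hsymm : ∀ x y, P x y = P y x)
    (hnn : ∀ x y, 0 ≤ P x y) (hrow : ∀ x, ∑ y, P x y = 1) (hlazy : ∀ x, 1 / 2 ≤ P x x)
    (γ : ℝ) (hγ1 : γ ≤ 1)
    (hgap : ∀ f : X → ℝ, ∑ x, f x = 0 → γ * ∑ x, f x ^ 2 ≤ ∑ x, f x * (f x - (P.mulVec f) x))
    (f : X → ℝ) (hf : ∑ x, f x = 0) (t : ℕ) :
    ∑ x, ((P ^ t).mulVec f) x = 0 ∧
      ∑ x, ((P ^ t).mulVec f) x ^ 2 ≤ ((1 - γ) ^ 2) ^ t * ∑ x, f x ^ 2 := by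
  induction t with
  | zero => simp [hf]
  | succ t ih =>
    have e : (P ^ (t + 1)).mulVec f = P.mulVec ((P ^ t).mulVec f) := by
      rw [pow_succ', Matrix.mulVec_mulVec]
    rw [e]
    refine ⟨by rw [sum_mulVec P hsymm hrow]; exact ih.1, ?_⟩
    have hc := contraction P hsymm hnn hrow hlazy γ hγ1 hgap _ ih.1
    have h0 : 0 ≤ (1 - γ) ^ 2 := sq_nonneg _
    calc ∑ x, (P.mulVec ((P ^ t).mulVec f)) x ^ 2
        ≤ (1 - γ) ^ 2 * ∑ x, ((P ^ t).mulVec f) x ^ 2 := hc
      _ ≤ (1 - γ) ^ 2 * (((1 - γ) ^ 2) ^ t * ∑ x, f x ^ 2) := mul_le_mul_of_nonneg_left ih.2 h0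
      _ = ((1 - γ) ^ 2) ^ (t + 1) * ∑ x, f x ^ 2 := by ring

/-- Powers of a symmetric matrix are symmetric. -/
theorem pow_symm [DecidableEq X] (P : Matrix X X ℝ) (hsymm : ∀ x y, P x y = P y x) (t : ℕ) (x y : X) :
    (P ^ t) x y = (P ^ t) y x := by
  have hT : P.transpose = P := by
    ext a b; exact hsymm b a
  have : (P ^ t).transpose = P ^ t := by rw [Matrix.transpose_pow, hT]
  calc (P ^ t) x y = (P ^ t).transpose y x := rfl
    _ = (P ^ t) y x := by rw [this]

/-- Rows of powers of a stochastic matrix sum to one. -/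
theorem pow_row_sum [DecidableEq X] (P : Matrix X X ℝ) (hrow : ∀ x, ∑ y, P x y = 1) (t : ℕ) (x : X) :
    ∑ y, (P ^ t) x y = 1 := by
  induction t generalizing x with
  | zero => simp [Matrix.one_apply]
  | succ t ih =>
    rw [pow_succ]
    simp only [Matrix.mul_apply]
    rw [Finset.sum_comm]
    have : ∀ z, ∑ y, (P ^ t) x z * P z y = (P ^ t) x z := by
      intro z; rw [← Finset.mul_sum, hrow z, mul_one]
    simp only [this]
    exact ih x

/-- **Total variation decay from a Poincare inequality.** -/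
theorem tv_le_of_poincare [DecidableEq X] (P : Matrix X X ℝ) (hsymm : ∀ x y, P x y = P y x)
    (hnn : ∀ x y, 0 ≤ P x y) (hrow : ∀ x, ∑ y, P x y = 1) (hlazy : ∀ x, 1 / 2 ≤ P x x)
    (γ : ℝ) (hγ1 : γ ≤ 1)
    (hgap : ∀ f : X → ℝ, ∑ x, f x = 0 → γ * ∑ x, f x ^ 2 ≤ ∑ x, f x * (f x - (P.mulVec f) x))
    (t : ℕ) (x : X) :
    (1 / 2 : ℝ) * ∑ y, |(P ^ t) x y - 1 / (Fintype.card X : ℝ)| ≤
      (1 / 2 : ℝ) * Real.sqrt (Fintype.card X) * (1 - γ) ^ t := by
  classical
  have hN : (0 : ℝ) < Fintype.card X := by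
    have : 0 < Fintype.card X := Fintype.card_pos_iff.mpr ⟨x⟩
    exact_mod_cast this
  set N : ℝ := (Fintype.card X : ℝ) with hNdef
  -- the start function
  set f0 : X → ℝ := fun z => (if z = x then (1 : ℝ) else 0) - 1 / N with hf0
  have hf0sum : ∑ z, f0 z = 0 := by
    simp only [hf0, Finset.sum_sub_distrib, Finset.sum_ite_eq', Finset.mem_univ, if_true,
      Finset.sum_const, Finset.card_univ, nsmul_eq_mul]
    rw [← hNdef]; field_simp; ring
  have hf0sq : ∑ z, f0 z ^ 2 ≤ 1 := by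
    have e : ∀ z, f0 z ^ 2 = (if z = x then (1 : ℝ) else 0) * (1 - 2 / N) + 1 / N ^ 2 := by
      intro z
      simp only [hf0]
      by_cases hz : z = x
      · simp only [hz, if_true]; field_simp; ring
      · simp only [hz, if_false]; field_simp; ring
    simp only [e, Finset.sum_add_distrib, ← Finset.sum_mul, Finset.sum_ite_eq', Finset.mem_univ,
      if_true, Finset.sum_const, Finset.card_univ, nsmul_eq_mul]
    rw [← hNdef]
    have : N * (1 / N ^ 2) = 1 / N := by field_simp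
    rw [this]
    have h1 : 0 < 1 / N := by positivity
    have : 2 / N = 2 * (1 / N) := by ring
    linarith
  -- identify the t-step deviation with (P^t) f0
  have hid : ∀ y, (P ^ t) x y - 1 / N = ((P ^ t).mulVec f0) y := by
    intro y
    simp only [Matrix.mulVec, dotProduct, hf0, mul_sub, Finset.sum_sub_distrib, mul_ite, mul_one,
      mul_zero, Finset.sum_ite_eq', Finset.mem_univ, if_true]
    rw [← Finset.sum_mul, pow_row_sum P hrow t y, one_mul, pow_symm P hsymm t x y]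
  have hc := (contraction_pow P hsymm hnn hrow hlazy γ hγ1 hgap f0 hf0sum t).2
  set g := (P ^ t).mulVec f0 with hg
  have hγ : 0 ≤ 1 - γ := by linarith
  have hsumabs : (∑ y, |g y|) ^ 2 ≤ N * ∑ y, g y ^ 2 := by
    have := sq_sum_le_card_mul_sum_sq (s := (Finset.univ : Finset X)) (f := fun y => |g y|)
    simp only [sq_abs, Finset.card_univ] at this
    rw [hNdef]; exact this
  have hbound : (∑ y, |g y|) ^ 2 ≤ (Real.sqrt N * (1 - γ) ^ t) ^ 2 := by
    rw [mul_pow, Real.sq_sqrt hN.le]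
    have h1 : ∑ y, g y ^ 2 ≤ ((1 - γ) ^ 2) ^ t * 1 := by
      refine le_trans hc ?_
      exact mul_le_mul_of_nonneg_left hf0sq (by positivity)
    have h2 : ((1 - γ) ^ 2) ^ t = ((1 - γ) ^ t) ^ 2 := by rw [← pow_mul, ← pow_mul, mul_comm]
    rw [h2, mul_one] at h1
    calc (∑ y, |g y|) ^ 2 ≤ N * ∑ y, g y ^ 2 := hsumabs
      _ ≤ N * ((1 - γ) ^ t) ^ 2 := mul_le_mul_of_nonneg_left h1 hN.le
  have hle : ∑ y, |g y| ≤ Real.sqrt N * (1 - γ) ^ t := by
    have h0 : 0 ≤ Real.sqrt N * (1 - γ) ^ t := by positivity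
    exact abs_le_of_sq_le_sq' hbound h0 |>.2
  have : ∑ y, |(P ^ t) x y - 1 / N| = ∑ y, |g y| := by
    refine Finset.sum_congr rfl fun y _ => ?_
    rw [hid y]
  rw [this]
  have := mul_le_mul_of_nonneg_left hle (by norm_num : (0 : ℝ) ≤ 1 / 2)
  linarith

end Vale.Agent.Lib.P335.H72
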