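import Vale.Agent.Lib.P335.helper72.Switch

/-!
# P335, chain-side glue (helper72), part 3: spectral gap of the switch Laplacian gives mixing

If the (unnormalised) switch Laplacian of `Omega n d` has second eigenvalue at least `2`, stated as
`4 * ∑ f^2 ≤ ∑_{G, G' switch-related} (f G - f G')^2` for all mean-zero `f` (ordered pairs, so
the right side is twice the Laplacian form), then the switch chain of the definitions file is within total
variation `1/4` of uniform after `n^6` steps from every start.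
-/

namespace Vale.Agent.Lib.P335.H72

open Finset
open scoped Classical
open Vale.Agent.Lib.P335

/-- Dirichlet form identity for a symmetric stochastic matrix. -/
theorem dirichlet_eq {X : Type*} [Fintype X] (P : Matrix X X ℝ)
    (hsymm : ∀ x y, P x y = P y x) (hrow : ∀ x, ∑ y, P x y = 1) (f : X → ℝ) :
    ∑ x, f x * (f x - (P.mulVec f) x) = (1 / 2) * ∑ x, ∑ y, P x y * (f x - f y) ^ 2 := by
  have e1 : ∑ x, ∑ y, P x y * (f x - f y) ^ 2
      = ∑ x, ∑ y, (P x y * f x ^ 2 + P x y * f y ^ 2 - 2 * (P x y * f x * f y)) := by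
    refine Finset.sum_congr rfl fun x _ => Finset.sum_congr rfl fun y _ => ?_
    ring
  have h2 : ∑ x, ∑ y, P x y * f x ^ 2 = ∑ x, f x ^ 2 := by
    refine Finset.sum_congr rfl fun x _ => ?_
    rw [← Finset.sum_mul, hrow x, one_mul]
  have h3 : ∑ x, ∑ y, P x y * f y ^ 2 = ∑ x, f x ^ 2 := by
    rw [Finset.sum_comm]
    refine Finset.sum_congr rfl fun y _ => ?_
    rw [← Finset.sum_mul]
    have : ∑ x, P x y = 1 := by
      rw [← hrow y]; exact Finset.sum_congr rfl fun x _ => hsymm x y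
    rw [this, one_mul]
  have h4 : ∑ x, f x * (f x - (P.mulVec f) x) = ∑ x, f x ^ 2 - qf P f f := by
    unfold qf
    rw [← Finset.sum_sub_distrib]
    refine Finset.sum_congr rfl fun x _ => ?_
    ring
  rw [h4, e1]
  simp only [Finset.sum_sub_distrib, Finset.sum_add_distrib, ← Finset.mul_sum]
  rw [h2, h3, qf_eq]
  ring

/-- There are at most `2^(n*n)` graphs in `Omega n d`. -/
theorem card_Omega_le (n : ℕ) (d : Fin n → ℕ) : Fintype.card (Omega n d) ≤ 2 ^ (n * n) := by
  have hinj : Function.Injective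
      (fun (G : Omega n d) (p : Fin n × Fin n) => decide (G.1.Adj p.1 p.2)) := by
    intro G G' h
    apply Subtype.ext
    ext a b
    have := congrFun h (a, b)
    simpa using this
  have := Fintype.card_le_of_injective _ hinj
  simpa [Fintype.card_fun, Fintype.card_prod] using this

/-- The numerical estimate behind the `n^6` bound. -/
theorem numeric_bound (n : ℕ) (hn : 4 ≤ n) (N : ℕ) (hN : N ≤ 2 ^ (n * n)) (t : ℕ)
    (ht : n ^ 6 ≤ t) :
    (1 / 2 : ℝ) * Real.sqrt N * (1 - 1 / (6 * (n.choose 4 : ℝ))) ^ t ≤ 1 / 4 := by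
  have hC1 : (1 : ℝ) ≤ (n.choose 4 : ℝ) := by
    have : 0 < n.choose 4 := Nat.choose_pos hn
    exact_mod_cast this
  have hCpos : (0 : ℝ) < (n.choose 4 : ℝ) := by linarith
  have hCle : (n.choose 4 : ℝ) ≤ (n : ℝ) ^ 4 / 24 := by
    have := Nat.choose_le_pow_div (α := ℝ) 4 n
    have h24 : ((Nat.factorial 4 : ℕ) : ℝ) = 24 := by norm_num [Nat.factorial]
    rw [h24] at this
    exact this
  have hnpos : (0 : ℝ) < (n : ℝ) := by
    have : 0 < n := by omega
    exact_mod_cast this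
  set γ : ℝ := 1 / (6 * (n.choose 4 : ℝ)) with hγ
  have hγpos : 0 < γ := by positivity
  have hγ1 : γ ≤ 1 := by
    rw [hγ, div_le_one (by positivity)]
    linarith
  have hγlow : 4 / (n : ℝ) ^ 4 ≤ γ := by
    rw [hγ, div_le_div_iff₀ (by positivity) (by positivity)]
    nlinarith
  -- (1-γ)^t ≤ exp(-γ t)
  have h1 : (1 - γ) ^ t ≤ Real.exp (-(γ * t)) := by
    have hle : 1 - γ ≤ Real.exp (-γ) := by
      have := Real.add_one_le_exp (-γ)
      linarith
    have h0 : 0 ≤ 1 - γ := by linarith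
    calc (1 - γ) ^ t ≤ (Real.exp (-γ)) ^ t := pow_le_pow_left₀ h0 hle t
      _ = Real.exp (-(γ * t)) := by
        rw [← Real.exp_nat_mul]; congr 1; ring
  -- γ t ≥ 4 n^2
  have htR : ((n : ℝ)) ^ 6 ≤ (t : ℝ) := by exact_mod_cast ht
  have hγt : 4 * (n : ℝ) ^ 2 ≤ γ * t := by
    have h4 : 4 / (n : ℝ) ^ 4 * (n : ℝ) ^ 6 = 4 * (n : ℝ) ^ 2 := by
      field_simp
    calc 4 * (n : ℝ) ^ 2 = 4 / (n : ℝ) ^ 4 * (n : ℝ) ^ 6 := h4.symm
      _ ≤ γ * (n : ℝ) ^ 6 := mul_le_mul_of_nonneg_right hγlow (by positivity)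
      _ ≤ γ * t := mul_le_mul_of_nonneg_left htR hγpos.le
  -- sqrt N ≤ exp(n^2/2)
  have he2 : (2 : ℝ) ≤ Real.exp 1 := by
    have := Real.add_one_le_exp (1 : ℝ)
    linarith
  have hNle : (N : ℝ) ≤ Real.exp ((n : ℝ) ^ 2) := by
    have h2 : (N : ℝ) ≤ (2 : ℝ) ^ (n * n) := by exact_mod_cast hN
    have h3 : (2 : ℝ) ^ (n * n) ≤ (Real.exp 1) ^ (n * n) :=
      pow_le_pow_left₀ (by norm_num) he2 _
    have h4 : (Real.exp 1) ^ (n * n) = Real.exp ((n : ℝ) ^ 2) := by
      rw [← Real.exp_nat_mul]; congr 1; push_cast; ring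
    linarith
  have hsqrt : Real.sqrt N ≤ Real.exp ((n : ℝ) ^ 2 / 2) := by
    rw [Real.exp_half]
    exact Real.sqrt_le_sqrt hNle
  have hprod : Real.sqrt N * (1 - γ) ^ t ≤ Real.exp ((n : ℝ) ^ 2 / 2) * Real.exp (-(γ * t)) :=
    mul_le_mul hsqrt h1 (pow_nonneg (by linarith) t) (Real.exp_pos _).le
  have hexp : Real.exp ((n : ℝ) ^ 2 / 2) * Real.exp (-(γ * t)) ≤ Real.exp (-1) := by
    rw [← Real.exp_add]
    apply Real.exp_le_exp.mpr
    have : (1 : ℝ) ≤ (n : ℝ) ^ 2 := by
      have : (4 : ℝ) ≤ n := by exact_mod_cast hn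
      nlinarith
    linarith
  have hinv : Real.exp (-1) ≤ 1 / 2 := by
    rw [Real.exp_neg, one_div]
    exact inv_anti₀ (by norm_num) he2
  have : Real.sqrt N * (1 - γ) ^ t ≤ 1 / 2 := le_trans hprod (le_trans hexp hinv)
  calc (1 / 2 : ℝ) * Real.sqrt N * (1 - γ) ^ t = 1 / 2 * (Real.sqrt N * (1 - γ) ^ t) := by ring
    _ ≤ 1 / 2 * (1 / 2) := mul_le_mul_of_nonneg_left this (by norm_num)
    _ = 1 / 4 := by norm_num

/-- **Spectral gap `≥ 2` of the switch Laplacian implies `t_mix ≤ n^6`.**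
The hypothesis is the Poincare inequality of the unnormalised switch Laplacian with constant `2`
(the double sum runs over ordered pairs of switch-related graphs, hence the constant `4`). -/
theorem mixing_of_gap {n : ℕ} (hn : 4 ≤ n) (d : Fin n → ℕ)
    (hgap : ∀ f : Omega n d → ℝ, ∑ G, f G = 0 →
      4 * ∑ G, f G ^ 2 ≤ ∑ G, ∑ G', (if swRel G G' then (f G - f G') ^ 2 else 0))
    (t : ℕ) (ht : n ^ 6 ≤ t) (G : Omega n d) : tvDist n d t G ≤ 1 / 4 := by
  have hC1 : (1 : ℝ) ≤ (n.choose 4 : ℝ) := by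
    have : 0 < n.choose 4 := Nat.choose_pos hn
    exact_mod_cast this
  have hCpos : (0 : ℝ) < (n.choose 4 : ℝ) := by linarith
  set γ : ℝ := 1 / (6 * (n.choose 4 : ℝ)) with hγ
  have hγ1 : γ ≤ 1 := by
    rw [hγ, div_le_one (by positivity)]
    linarith
  have hpoinc : ∀ f : Omega n d → ℝ, ∑ G, f G = 0 →
      γ * ∑ G, f G ^ 2 ≤ ∑ G, f G * (f G - ((switchMatrix n d).mulVec f) G) := by
    intro f hf
    rw [dirichlet_eq (switchMatrix n d) switchMatrix_symm (switchMatrix_row_sum hn) f]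
    have hlow : ∑ G, ∑ G', (if swRel G G' then (f G - f G') ^ 2 else 0) * (1 / (12 * (n.choose 4 : ℝ)))
        ≤ ∑ G, ∑ G', switchMatrix n d G G' * (f G - f G') ^ 2 := by
      refine Finset.sum_le_sum fun G _ => Finset.sum_le_sum fun G' _ => ?_
      by_cases h : swRel G G'
      · rw [if_pos h, mul_comm]
        exact mul_le_mul_of_nonneg_right (switchMatrix_ge_of_swRel h) (sq_nonneg _)
      · rw [if_neg h, zero_mul]
        exact mul_nonneg (switchMatrix_nonneg G G') (sq_nonneg _)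
    have hg := hgap f hf
    have e : ∑ G, ∑ G', (if swRel G G' then (f G - f G') ^ 2 else 0) * (1 / (12 * (n.choose 4 : ℝ)))
        = (∑ G, ∑ G', (if swRel G G' then (f G - f G') ^ 2 else 0)) * (1 / (12 * (n.choose 4 : ℝ))) := by
      rw [Finset.sum_mul]
      refine Finset.sum_congr rfl fun G _ => ?_
      rw [Finset.sum_mul]
    rw [e] at hlow
    have hpos : (0 : ℝ) ≤ 1 / (12 * (n.choose 4 : ℝ)) := by positivity
    have h5 : (4 * ∑ G, f G ^ 2) * (1 / (12 * (n.choose 4 : ℝ)))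
        ≤ ∑ G, ∑ G', switchMatrix n d G G' * (f G - f G') ^ 2 :=
      le_trans (mul_le_mul_of_nonneg_right hg hpos) hlow
    have h6 : γ * ∑ G, f G ^ 2 = 1 / 2 * ((4 * ∑ G, f G ^ 2) * (1 / (12 * (n.choose 4 : ℝ)))) := by
      rw [hγ]; field_simp; ring
    rw [h6]
    exact mul_le_mul_of_nonneg_left h5 (by norm_num)
  have htv := tv_le_of_poincare (switchMatrix n d) switchMatrix_symm switchMatrix_nonneg
    (switchMatrix_row_sum hn) switchMatrix_diag_ge γ hγ1 hpoinc t G
  unfold tvDist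
  refine le_trans htv ?_
  exact numeric_bound n hn (Fintype.card (Omega n d)) (card_Omega_le n d) t ht

end Vale.Agent.Lib.P335.H72
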