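import Vale.Agent.Lib.P335.BridgeDefs
import Vale.Agent.Lib.P335.helper72.Mixing

/-!
# P335 (helper72): the graph-side switch relation is realised by the chain

`GSwitch G G'` (remove two disjoint edges, insert two absent ones on the same four vertices)
implies that one attempted switch of the chain turns `G` into `G'`; hence the mixing theorem
can be stated with `GSwitch`.
-/

namespace Vale.Agent.Lib.P335.H72

open Finset
open scoped Classical
open Vale.Agent.Lib.P335 Vale.Agent.Lib.P335.Bridge

variable {n : ℕ}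

/-- Two disjoint pairs covering a four-element set form a perfect matching of it. -/
theorem pm_mem {S : Finset (Fin n)} {x y z w : Fin n}
    (hS : ∀ v, v ∈ S ↔ v = x ∨ v = y ∨ v = z ∨ v = w)
    (hxy : x ≠ y) (hxz : x ≠ z) (hxw : x ≠ w) (hyz : y ≠ z) (hyw : y ≠ w) (hzw : z ≠ w) :
    ({s(x, y), s(z, w)} : Finset (Sym2 (Fin n))) ∈ perfMatchings S := by
  have hx : x ∈ S := (hS x).mpr (Or.inl rfl)
  have hy : y ∈ S := (hS y).mpr (Or.inr (Or.inl rfl))
  have hz : z ∈ S := (hS z).mpr (Or.inr (Or.inr (Or.inl rfl)))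
  have hw : w ∈ S := (hS w).mpr (Or.inr (Or.inr (Or.inr rfl)))
  unfold perfMatchings
  rw [Finset.mem_filter, Finset.mem_powerset]
  refine ⟨?_, ?_, ?_⟩
  · intro f hf
    simp only [Finset.mem_insert, Finset.mem_singleton] at hf
    rcases hf with rfl | rfl
    · rw [Finset.mk_mem_sym2_iff]; exact ⟨hx, hy⟩
    · rw [Finset.mk_mem_sym2_iff]; exact ⟨hz, hw⟩
  · intro f hf
    simp only [Finset.mem_insert, Finset.mem_singleton] at hf
    rcases hf with rfl | rfl
    · rw [Sym2.mk_isDiag_iff]; exact hxy
    · rw [Sym2.mk_isDiag_iff]; exact hzw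
  · intro v hv
    rcases (hS v).mp hv with rfl | rfl | rfl | rfl
    · refine ⟨s(v, y), ⟨by simp, by simp⟩, ?_⟩
      rintro f ⟨hf, hvf⟩
      simp only [Finset.mem_insert, Finset.mem_singleton] at hf
      rcases hf with rfl | rfl
      · rfl
      · simp only [Sym2.mem_iff] at hvf
        rcases hvf with h | h
        · exact absurd h hxz
        · exact absurd h hxw
    · refine ⟨s(x, v), ⟨by simp, by simp⟩, ?_⟩
      rintro f ⟨hf, hvf⟩
      simp only [Finset.mem_insert, Finset.mem_singleton] at hf
      rcases hf with rfl | rfl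
      · rfl
      · simp only [Sym2.mem_iff] at hvf
        rcases hvf with h | h
        · exact absurd h hyz
        · exact absurd h hyw
    · refine ⟨s(v, w), ⟨by simp, by simp⟩, ?_⟩
      rintro f ⟨hf, hvf⟩
      simp only [Finset.mem_insert, Finset.mem_singleton] at hf
      rcases hf with rfl | rfl
      · simp only [Sym2.mem_iff] at hvf
        rcases hvf with h | h
        · exact absurd h.symm hxz
        · exact absurd h.symm hyz
      · rfl
    · refine ⟨s(z, v), ⟨by simp, by simp⟩, ?_⟩
      rintro f ⟨hf, hvf⟩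
      simp only [Finset.mem_insert, Finset.mem_singleton] at hf
      rcases hf with rfl | rfl
      · simp only [Sym2.mem_iff] at hvf
        rcases hvf with h | h
        · exact absurd h.symm hxw
        · exact absurd h.symm hyw
      · rfl

/-- A graph-side switch between two graphs of `Omega n d` is one attempted switch of the
chain. -/
theorem swRel_of_GSwitch {d : Fin n → ℕ} {G G' : Omega n d} (h : GSwitch G.1 G'.1) :
    swRel G G' := by
  obtain ⟨a, b, c, e, hab, hac, hae, hbc, hbe, hce, h1, h2, h3, h4, hG'⟩ := h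
  have hne : G ≠ G' := by
    intro hGG
    have hadj : G'.1.Adj a c := by
      rw [hG', SimpleGraph.fromEdgeSet_adj]
      exact ⟨Or.inr (by simp), hac⟩
    rw [← hGG] at hadj
    exact h3 hadj
  refine ⟨hne, {a, b, c, e}, ?_, (({s(a, b), s(c, e)} : Finset (Sym2 (Fin n))),
    ({s(a, c), s(b, e)} : Finset (Sym2 (Fin n)))), ?_, ?_⟩
  · rw [Finset.mem_powersetCard]
    refine ⟨Finset.subset_univ _, ?_⟩
    rw [Finset.card_eq_four]
    exact ⟨a, b, c, e, hab, hac, hae, hbc, hbe, hce, rfl⟩
  · unfold matchingPairs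
    rw [Finset.mem_filter, Finset.mem_product]
    refine ⟨⟨?_, ?_⟩, ?_⟩
    · exact pm_mem (by intro v; simp) hab hac hae hbc hbe hce
    · exact pm_mem (by
        intro v; simp only [Finset.mem_insert, Finset.mem_singleton]
        constructor <;> rintro (h | h | h | h) <;> simp [h]) hac hab hae hbc.symm hce hbe
    · intro heq
      have heq' : ({s(a, b), s(c, e)} : Finset (Sym2 (Fin n))) = {s(a, c), s(b, e)} := heq
      have : s(a, b) ∈ ({s(a, c), s(b, e)} : Finset (Sym2 (Fin n))) := by
        rw [← heq']; simp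
      simp only [Finset.mem_insert, Finset.mem_singleton, Sym2.eq_iff] at this
      rcases this with (⟨_, h⟩ | ⟨h, _⟩) | (⟨h, _⟩ | ⟨h, _⟩)
      · exact hbc h
      · exact hac h
      · exact hab h
      · exact hae h
  · have hc : (∀ f ∈ ({s(a, b), s(c, e)} : Finset (Sym2 (Fin n))), f ∈ G.1.edgeSet) ∧
        (∀ f ∈ ({s(a, c), s(b, e)} : Finset (Sym2 (Fin n))), f ∉ G.1.edgeSet) := by
      constructor
      · intro f hf
        simp only [Finset.mem_insert, Finset.mem_singleton] at hf
        rcases hf with rfl | rfl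
        · exact (SimpleGraph.mem_edgeSet _).mpr h1
        · exact (SimpleGraph.mem_edgeSet _).mpr h2
      · intro f hf
        simp only [Finset.mem_insert, Finset.mem_singleton] at hf
        rcases hf with rfl | rfl
        · exact fun h => h3 ((SimpleGraph.mem_edgeSet _).mp h)
        · exact fun h => h4 ((SimpleGraph.mem_edgeSet _).mp h)
    show switch G.1 ({s(a, b), s(c, e)} : Finset (Sym2 (Fin n)))
      ({s(a, c), s(b, e)} : Finset (Sym2 (Fin n))) = G'.1
    rw [switch_pos hc, hG']
    congr 2
    · congr 1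
      ext f; simp
    · ext f; simp

/-- **Mixing from the spectral gap, stated with the graph-side switch relation.** -/
theorem mixing_of_gap_GSwitch {n : ℕ} (hn : 4 ≤ n) (d : Fin n → ℕ)
    (hgap : ∀ f : Omega n d → ℝ, ∑ G, f G = 0 →
      4 * ∑ G, f G ^ 2 ≤ ∑ G, ∑ G', (if GSwitch G.1 G'.1 then (f G - f G') ^ 2 else 0))
    (t : ℕ) (ht : n ^ 6 ≤ t) (G : Omega n d) : tvDist n d t G ≤ 1 / 4 := by
  refine mixing_of_gap hn d (fun f hf => le_trans (hgap f hf) ?_) t ht G
  refine Finset.sum_le_sum fun G _ => Finset.sum_le_sum fun G' _ => ?_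
  by_cases h : GSwitch G.1 G'.1
  · rw [if_pos h, if_pos (swRel_of_GSwitch h)]
  · rw [if_neg h]
    split_ifs
    · exact sq_nonneg _
    · exact le_refl _

end Vale.Agent.Lib.P335.H72
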