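import Vale.Agent.Lib.P335.helper72.GraphTriple
import Vale.Agent.Lib.P335.helper85.KnabeGraph
import Vale.Agent.Lib.P335.helper48.MixingBridge

/-!
# P335 (helper72): assembly of the graph case (general degree vectors)

With `R_S = GR S` (conditional expectation given `G - S`) and `P_p = 1 - R_p`:

* `graph_gap` : the three-row lemma `h3` and a lower bound `hpar` for the sum of the products
  of disjoint pair projections give the gap `1 + c` of `H = ∑_p P_p` on mean-zero functions.
* `graph_poincare` : with `hGP` (`2 H ≤` switch Dirichlet form) this is a Poincare inequality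
  for the switch graph on `Omega n d`.
* `graph_mixing`, `graph_mixing_weak` : the switch chain is within total variation distance
  `1/4` of uniform after `n^6` steps.
-/

namespace Vale.Agent.Lib.P335.Gr

open Finset
open scoped Classical
open Vale.Agent.Lib.P335 Vale.Agent.Lib.P335.Bip Vale.Agent.Lib.P335.Bridge

variable {n : ℕ} {d : Fin n → ℕ}

/-- The projection `P_S = 1 - R_S`. -/
noncomputable def GP (S : Finset (Fin n)) : (Omega n d → ℝ) →ₗ[ℝ] (Omega n d → ℝ) :=
  LinearMap.id - GR S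

theorem GP_apply (S : Finset (Fin n)) (f : Omega n d → ℝ) : GP S f = f - GR S f := by
  unfold GP
  rw [LinearMap.sub_apply, LinearMap.id_apply]

theorem ip_GP (S : Finset (Fin n)) (f : Omega n d → ℝ) :
    ip f (GP S f) = ip f f - ip f (GR S f) := by
  rw [GP_apply, ip_sub_right]

/-- The projection onto the constant functions (the mean). -/
noncomputable def GMean : (Omega n d → ℝ) →ₗ[ℝ] (Omega n d → ℝ) :=
  cexp (fun _ : Omega n d => ())

theorem GMean_eq_zero (f : Omega n d → ℝ) (hf : ∑ G, f G = 0) : GMean f = 0 := by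
  funext G
  unfold GMean
  rw [cexp_apply]
  simp [hf]

/-- A switch changes only edges at a suitable vertex pair. -/
theorem gswitch_gmask {G G' : SimpleGraph (Fin n)} (h : GSwitch G G') :
    ∃ p : Finset (Fin n), p.card = 2 ∧ gmask p G = gmask p G' := by
  obtain ⟨a, b, c, e, hab, hac, hae, hbc, hbe, hce, h1, h2, h3, h4, rfl⟩ := h
  refine ⟨{a, e}, Finset.card_pair hae, ?_⟩
  rw [gmask_eq_iff]
  intro x y hx hy
  rw [mem_insert, mem_singleton, not_or] at hx hy
  rw [Vale.Agent.Lib.P335.H72.gsw_adj]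
  have k1 : s(x, y) ≠ s(a, b) := by
    intro hs
    rcases Sym2.eq_iff.mp hs with ⟨h5, -⟩ | ⟨-, h5⟩
    · exact hx.1 h5
    · exact hy.1 h5
  have k2 : s(x, y) ≠ s(c, e) := by
    intro hs
    rcases Sym2.eq_iff.mp hs with ⟨-, h5⟩ | ⟨h5, -⟩
    · exact hy.2 h5
    · exact hx.2 h5
  have k3 : s(x, y) ≠ s(a, c) := by
    intro hs
    rcases Sym2.eq_iff.mp hs with ⟨h5, -⟩ | ⟨-, h5⟩
    · exact hx.1 h5
    · exact hy.1 h5
  have k4 : s(x, y) ≠ s(b, e) := by
    intro hs
    rcases Sym2.eq_iff.mp hs with ⟨-, h5⟩ | ⟨h5, -⟩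
    · exact hy.2 h5
    · exact hx.2 h5
  constructor
  · intro hG
    exact ⟨Or.inl ⟨hG, k1, k2⟩, G.ne_of_adj hG⟩
  · rintro ⟨(⟨hG, -, -⟩ | hs | hs), -⟩
    · exact hG
    · exact absurd hs k3
    · exact absurd hs k4

/-- The common kernel of the pair projections consists of the constant functions. -/
theorem GMean_of_ker (f : Omega n d → ℝ)
    (h : ∀ p : Finset (Fin n), p.card = 2 → GP p f = 0) : GMean f = f := by
  have hinv : ∀ G G' : Omega n d, GSwitch G.1 G'.1 → f G = f G' := by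
    intro G G' hsw
    obtain ⟨p, hp, hm⟩ := gswitch_gmask hsw
    have h1 := h p hp
    rw [GP_apply, sub_eq_zero] at h1
    have h2 : GR p f G = GR p f G' := cexp_congr (fun G : Omega n d => gmask p G.1) hm f
    rw [← h1] at h2
    exact h2
  unfold GMean
  apply cexp_of_factor
  intro G G' _
  exact Vale.Agent.Lib.P335.H72.const_of_gswitch_invariant f hinv G G'

/-- **Gap of `H = ∑_p (1 - R_p)`** on `Omega n d` for every degree vector `d`, from the
three-row lemma `h3` and the lower bound `hpar` for the disjoint pair products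
(`c = 0`: the sum of the disjoint products is nonnegative; `c = 1`: it dominates `H`). -/
theorem graph_gap
    (h3 : ∀ (n : ℕ) (r : Fin 3 → ℕ) (c : Fin n → ℕ) (g : Om 3 n r c → ℝ),
      ∑ q ∈ (univ : Finset (Fin 3)).powersetCard 2, ip g (R q g) ≤ 2 * ip g g + ip g (R univ g))
    (c : ℝ) (hc : 0 ≤ c)
    (hpar : ∀ f : Omega n d → ℝ,
      c * ∑ p ∈ (univ : Finset (Fin n)).powersetCard 2, (ip f f - ip f (GR p f)) ≤
        ∑ p ∈ (univ : Finset (Fin n)).powersetCard 2,
          ∑ q ∈ (univ : Finset (Fin n)).powersetCard 2,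
            (if Disjoint p q then ip (f - GR p f) (f - GR q f) else 0))
    (f : Omega n d → ℝ) (hf : ∑ G, f G = 0) :
    (1 + c) * ip f f ≤ ∑ p ∈ (univ : Finset (Fin n)).powersetCard 2, (ip f f - ip f (GR p f)) := by
  have key := Vale.Agent.Lib.P335.H85.gap_of_knabe_par
    (fun p : Finset (Fin n) => (GP p : (Omega n d → ℝ) →ₗ[ℝ] (Omega n d → ℝ)))
    (fun T : Finset (Fin n) => (GR T : (Omega n d → ℝ) →ₗ[ℝ] (Omega n d → ℝ))) c hc
    (by
      intro p _ g h
      rw [GP_apply, GP_apply, ip_sub_right, ip_sub_left, GR_symm])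
    (by
      intro p _ g
      rw [GP_apply, GP_apply, map_sub, GR_idem, sub_self, sub_zero])
    (fun T _ g h => GR_symm T g h)
    (fun T _ g => GR_idem T g)
    (by
      intro T _ p hp g
      rw [GP_apply, GR_tower (Finset.mem_powersetCard.mp hp).1, sub_self])
    (by
      intro T hT g
      have h1 := graph_triple h3 T hT g
      have h2 : ∑ p ∈ T.powersetCard 2, ip g (GP p g)
          = 3 * ip g g - ∑ p ∈ T.powersetCard 2, ip g (GR p g) := by
        simp only [ip_GP]
        rw [Finset.sum_sub_distrib, Finset.sum_const, Finset.card_powersetCard, hT]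
        simp [Nat.choose]
      rw [h2]
      linarith)
    (by
      intro g
      have e : ∀ p : Finset (Fin n), ip g (GP p g) = ip g g - ip g (GR p g) := fun p => ip_GP p g
      simp only [e]
      simp only [GP_apply]
      exact hpar g)
    GMean
    (fun g h => cexp_symm _ g h)
    (by
      intro p _ g
      rw [GP_apply, sub_eq_zero]
      unfold GMean GR
      exact (cexp_tower' _ _ (fun _ _ _ => rfl) g).symm)
    (fun g hg => GMean_of_ker g hg)
    f
  rw [GMean_eq_zero f hf, ip_zero_right, sub_zero] at key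
  simp only [ip_GP] at key
  exact key

/-- **Poincare inequality for the switch graph** on `Omega n d`, from the gap of `H` and the
comparison `hGP` of `H` with the switch Dirichlet form. -/
theorem graph_poincare
    (h3 : ∀ (n : ℕ) (r : Fin 3 → ℕ) (c : Fin n → ℕ) (g : Om 3 n r c → ℝ),
      ∑ q ∈ (univ : Finset (Fin 3)).powersetCard 2, ip g (R q g) ≤ 2 * ip g g + ip g (R univ g))
    (c : ℝ) (hc : 0 ≤ c)
    (hpar : ∀ f : Omega n d → ℝ,
      c * ∑ p ∈ (univ : Finset (Fin n)).powersetCard 2, (ip f f - ip f (GR p f)) ≤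
        ∑ p ∈ (univ : Finset (Fin n)).powersetCard 2,
          ∑ q ∈ (univ : Finset (Fin n)).powersetCard 2,
            (if Disjoint p q then ip (f - GR p f) (f - GR q f) else 0))
    (hGP : ∀ f : Omega n d → ℝ,
      2 * ∑ p ∈ (univ : Finset (Fin n)).powersetCard 2, (ip f f - ip f (GR p f)) ≤
        ∑ G, ∑ G', if GSwitch G.1 G'.1 then (f G - f G') ^ 2 else 0)
    (f : Omega n d → ℝ) (hf : ∑ G, f G = 0) :
    2 * (1 + c) * ∑ G, f G ^ 2 ≤
      ∑ G, ∑ G', if GSwitch G.1 G'.1 then (f G - f G') ^ 2 else 0 := by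
  have h1 := graph_gap h3 c hc hpar f hf
  have h2 := hGP f
  rw [← ip_eq_sum_sq]
  nlinarith

/-- **Mixing, sharp form**: if the sum of the disjoint pair products dominates `H`
(`hpar` with `c = 1`), the switch chain on `Omega n d` is within total variation distance
`1/4` of the uniform distribution after `n^6` steps, for every degree vector `d`. -/
theorem graph_mixing (hn : 4 ≤ n)
    (h3 : ∀ (n : ℕ) (r : Fin 3 → ℕ) (c : Fin n → ℕ) (g : Om 3 n r c → ℝ),
      ∑ q ∈ (univ : Finset (Fin 3)).powersetCard 2, ip g (R q g) ≤ 2 * ip g g + ip g (R univ g))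
    (hpar : ∀ f : Omega n d → ℝ,
      ∑ p ∈ (univ : Finset (Fin n)).powersetCard 2, (ip f f - ip f (GR p f)) ≤
        ∑ p ∈ (univ : Finset (Fin n)).powersetCard 2,
          ∑ q ∈ (univ : Finset (Fin n)).powersetCard 2,
            (if Disjoint p q then ip (f - GR p f) (f - GR q f) else 0))
    (hGP : ∀ f : Omega n d → ℝ,
      2 * ∑ p ∈ (univ : Finset (Fin n)).powersetCard 2, (ip f f - ip f (GR p f)) ≤
        ∑ G, ∑ G', if GSwitch G.1 G'.1 then (f G - f G') ^ 2 else 0)
    (t : ℕ) (ht : n ^ 6 ≤ t) (G : Omega n d) : tvDist n d t G ≤ 1 / 4 := by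
  refine Vale.Agent.Lib.P335.H48.mixing_of_gswitch_poincare hn ?_ t ht G
  intro f hf
  have h1 := graph_poincare h3 1 (by norm_num) (by
    intro g
    rw [one_mul]
    exact hpar g) hGP f hf
  linarith

/-- A Poincare inequality with constant `2` for the switch relation on `Omega n d` still gives
total variation distance at most `1/4` after `n^6` steps of the switch chain. -/
theorem mixing_of_gswitch_poincare_two (hn : 4 ≤ n)
    (hP : ∀ f : Omega n d → ℝ, ∑ G, f G = 0 →
      2 * ∑ G, f G ^ 2 ≤ ∑ G, ∑ G', if GSwitch G.1 G'.1 then (f G - f G') ^ 2 else 0)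
    (t : ℕ) (ht : n ^ 6 ≤ t) (G : Omega n d) : tvDist n d t G ≤ 1 / 4 := by
  have hP' : ∀ f : Omega n d → ℝ, ∑ G, f G = 0 →
      2 * ∑ G, f G ^ 2 ≤ ∑ G, ∑ G', if Vale.Agent.Lib.P335.H48.IsSwitch G.1 G'.1
        then (f G - f G') ^ 2 else 0 := by
    intro f hf
    refine le_trans (hP f hf) (le_of_eq ?_)
    apply Finset.sum_congr rfl; intro x _
    apply Finset.sum_congr rfl; intro y _
    by_cases h : GSwitch x.1 y.1
    · rw [if_pos h, if_pos ((Vale.Agent.Lib.P335.H48.gswitch_iff _ _).mp h)]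
    · rw [if_neg h, if_neg (fun h' => h ((Vale.Agent.Lib.P335.H48.gswitch_iff _ _).mpr h'))]
  have hmain := Vale.Agent.Lib.P335.H48.tvDist_le_of_poincare hn 2 (by norm_num) hP' t G
  set C : ℕ := n.choose 4 with hC
  have hCpos : 1 ≤ C := Nat.choose_pos hn
  set m : ℕ := 12 * C with hm
  have hm1 : 1 ≤ m := by omega
  set M : ℕ := (n + 1).choose 2 with hM
  have hγ : (2 : ℝ) / (24 * (C : ℝ)) = 1 / (m : ℝ) := by
    rw [hm]; push_cast
    have : (0 : ℝ) < (C : ℝ) := by exact_mod_cast hCpos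
    field_simp; ring
  rw [hγ] at hmain
  have hnum : m * (M + 1) ≤ n ^ 6 := by
    have hCr : (C : ℝ) ≤ (n : ℝ) ^ 4 / 24 := by
      have := Nat.choose_le_pow_div (α := ℝ) 4 n
      simpa [Nat.factorial] using this
    have hMr : (M : ℝ) ≤ ((n : ℝ) + 1) ^ 2 / 2 := by
      have := Nat.choose_le_pow_div (α := ℝ) 2 (n + 1)
      simpa [Nat.factorial] using this
    have hn4 : (4 : ℝ) ≤ (n : ℝ) := by exact_mod_cast hn
    have : ((m * (M + 1) : ℕ) : ℝ) ≤ ((n ^ 6 : ℕ) : ℝ) := by
      push_cast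
      rw [hm]; push_cast
      have h1 : (12 : ℝ) * (C : ℝ) ≤ (n : ℝ) ^ 4 / 2 := by linarith
      have h2 : (M : ℝ) + 1 ≤ (n : ℝ) ^ 2 := by nlinarith
      have h3' : (0 : ℝ) ≤ (M : ℝ) + 1 := by positivity
      have h4 : (0 : ℝ) ≤ (n : ℝ) ^ 4 / 2 := by positivity
      calc (12 : ℝ) * (C : ℝ) * ((M : ℝ) + 1) ≤ (n : ℝ) ^ 4 / 2 * (n : ℝ) ^ 2 :=
            mul_le_mul h1 h2 h3' h4
        _ ≤ (n : ℝ) ^ 6 := by nlinarith [pow_nonneg (by linarith : (0 : ℝ) ≤ (n : ℝ)) 6]
    exact_mod_cast this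
  have hbase0 : (0 : ℝ) ≤ 1 - 1 / (m : ℝ) := by
    have : (1 : ℝ) / (m : ℝ) ≤ 1 := by
      rw [div_le_one (by exact_mod_cast hm1)]; exact_mod_cast hm1
    linarith
  have hbase1 : (1 - 1 / (m : ℝ)) ≤ 1 := by
    have : (0 : ℝ) ≤ 1 / (m : ℝ) := by positivity
    linarith
  have hpow : (1 - 1 / (m : ℝ)) ^ t ≤ (1 / 2 : ℝ) ^ (M + 1) := by
    calc (1 - 1 / (m : ℝ)) ^ t ≤ (1 - 1 / (m : ℝ)) ^ (m * (M + 1)) :=
          pow_le_pow_of_le_one hbase0 hbase1 (le_trans hnum ht)
      _ = ((1 - 1 / (m : ℝ)) ^ m) ^ (M + 1) := by rw [pow_mul]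
      _ ≤ (1 / 2 : ℝ) ^ (M + 1) :=
          pow_le_pow_left₀ (pow_nonneg hbase0 m) (Vale.Agent.Lib.P335.H48.pow_half m hm1) (M + 1)
  have hN : (Fintype.card (Omega n d) : ℝ) ≤ (2 : ℝ) ^ M := by
    exact_mod_cast (Vale.Agent.Lib.P335.H48.card_Omega_le (n := n) (d := d))
  have hN1 : (1 : ℝ) ≤ (Fintype.card (Omega n d) : ℝ) := by
    have : 0 < Fintype.card (Omega n d) := Fintype.card_pos_iff.mpr ⟨G⟩
    exact_mod_cast this
  have hsqrt : Real.sqrt (Fintype.card (Omega n d)) ≤ (2 : ℝ) ^ M := by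
    refine le_trans ?_ hN
    rw [Real.sqrt_le_iff]
    refine ⟨by linarith, ?_⟩
    nlinarith
  have hfin : Real.sqrt (Fintype.card (Omega n d)) * (1 - 1 / (m : ℝ)) ^ t ≤ 1 / 2 := by
    calc Real.sqrt (Fintype.card (Omega n d)) * (1 - 1 / (m : ℝ)) ^ t
        ≤ (2 : ℝ) ^ M * (1 / 2 : ℝ) ^ (M + 1) :=
          mul_le_mul hsqrt hpow (pow_nonneg hbase0 t) (by positivity)
      _ = 1 / 2 := by
          rw [pow_succ, ← mul_assoc, ← mul_pow]
          norm_num
  linarith

/-- **Mixing, weak form**: if the sum of the disjoint pair products is nonnegative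
(`hpar` with `c = 0`), the switch chain on `Omega n d` is still within total variation
distance `1/4` of the uniform distribution after `n^6` steps, for every degree vector `d`. -/
theorem graph_mixing_weak (hn : 4 ≤ n)
    (h3 : ∀ (n : ℕ) (r : Fin 3 → ℕ) (c : Fin n → ℕ) (g : Om 3 n r c → ℝ),
      ∑ q ∈ (univ : Finset (Fin 3)).powersetCard 2, ip g (R q g) ≤ 2 * ip g g + ip g (R univ g))
    (hpar : ∀ f : Omega n d → ℝ,
      0 ≤ ∑ p ∈ (univ : Finset (Fin n)).powersetCard 2,
          ∑ q ∈ (univ : Finset (Fin n)).powersetCard 2,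
            (if Disjoint p q then ip (f - GR p f) (f - GR q f) else 0))
    (hGP : ∀ f : Omega n d → ℝ,
      2 * ∑ p ∈ (univ : Finset (Fin n)).powersetCard 2, (ip f f - ip f (GR p f)) ≤
        ∑ G, ∑ G', if GSwitch G.1 G'.1 then (f G - f G') ^ 2 else 0)
    (t : ℕ) (ht : n ^ 6 ≤ t) (G : Omega n d) : tvDist n d t G ≤ 1 / 4 := by
  refine mixing_of_gswitch_poincare_two hn ?_ t ht G
  intro f hf
  have h1 := graph_poincare h3 0 (le_refl 0) (by
    intro g
    rw [zero_mul]
    exact hpar g) hGP f hf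
  linarith

end Vale.Agent.Lib.P335.Gr
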