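import Vale.Agent.Lib.P335.helper72.GraphDefs
import Vale.Agent.Lib.P335.helper72.GraphConn
import Vale.Agent.Lib.P335.helper45.Transfer

/-!
# P335 (helper72): common tools for the fibres of `G - S` in `Omega n d`
-/

namespace Vale.Agent.Lib.P335.Gr

open Finset
open scoped Classical
open Vale.Agent.Lib.P335 Vale.Agent.Lib.P335.Bip

namespace H72

variable {n : ℕ}

/-- An inequality between sums over `Omega n d` follows from the inequalities between the sums
over each class of graphs with the same `G - T`. -/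
lemma sum_le_sum_of_gclasses {d : Fin n → ℕ} (T : Finset (Fin n)) (H1 H2 : Omega n d → ℝ)
    (h : ∀ G0 : Omega n d,
      ∑ G ∈ univ.filter (fun G : Omega n d => gmask T G.1 = gmask T G0.1), H1 G
        ≤ ∑ G ∈ univ.filter (fun G : Omega n d => gmask T G.1 = gmask T G0.1), H2 G) :
    ∑ G, H1 G ≤ ∑ G, H2 G := by
  have hmaps : ∀ G ∈ (univ : Finset (Omega n d)),
      gmask T G.1 ∈ univ.image (fun G : Omega n d => gmask T G.1) :=
    fun G _ => mem_image_of_mem _ (mem_univ G)
  rw [← Finset.sum_fiberwise_of_maps_to hmaps H1, ← Finset.sum_fiberwise_of_maps_to hmaps H2]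
  apply Finset.sum_le_sum
  intro μ hμ
  obtain ⟨G0, -, rfl⟩ := mem_image.mp hμ
  exact h G0

/-- The degree of `v` splits into the neighbours outside `S` and the neighbours inside `S`. -/
lemma degree_split (G : SimpleGraph (Fin n)) (S : Finset (Fin n)) (v : Fin n) :
    G.degree v = (univ.filter (fun j => j ∉ S ∧ G.Adj v j)).card
      + (S.filter (fun j => G.Adj v j)).card := by
  rw [← Vale.Agent.Lib.P335.H72.card_nbr, ← card_union_of_disjoint]
  · congr 1
    ext j
    simp only [Vale.Agent.Lib.P335.H72.mem_nbr, mem_union, mem_filter, mem_univ, true_and]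
    tauto
  · rw [Finset.disjoint_left]
    intro j hj hj'
    simp only [mem_filter, mem_univ, true_and] at hj hj'
    exact hj.1 hj'.1

/-- Double counting of the entries of a matrix. -/
lemma sum_card_rows {k : ℕ} (z : Mat k n) : ∑ a, (z a).card = ∑ j, colSum z j := by
  have h1 : ∀ a, (z a).card = ∑ j, if j ∈ z a then 1 else 0 := by
    intro a
    rw [← Finset.card_filter]
    congr 1
    ext j
    simp
  have h2 : ∀ j, colSum z j = ∑ a, if j ∈ z a then 1 else 0 := by
    intro j
    unfold colSum
    rw [Finset.card_filter]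
  simp only [h1, h2]
  exact Finset.sum_comm

/-- Neighbours inside the image of an embedding. -/
lemma card_filter_map {k : ℕ} (φ : Fin k ↪ Fin n) (P : Fin n → Prop) :
    (((univ : Finset (Fin k)).map φ).filter P).card
      = (univ.filter (fun a : Fin k => P (φ a))).card := by
  rw [Finset.filter_map, Finset.card_map]
  rfl

lemma mem_map_univ_iff {k : ℕ} (φ : Fin k ↪ Fin n) (i : Fin n) :
    i ∈ (univ : Finset (Fin k)).map φ ↔ ∃ a, φ a = i := by
  simp only [mem_map, mem_univ, true_and]

lemma phi_mem {k : ℕ} (φ : Fin k ↪ Fin n) (a : Fin k) : φ a ∈ (univ : Finset (Fin k)).map φ :=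
  mem_map_of_mem φ (mem_univ a)

lemma ne_phi_of_not_mem {k : ℕ} (φ : Fin k ↪ Fin n) {y : Fin n}
    (hy : y ∉ (univ : Finset (Fin k)).map φ) (a : Fin k) : y ≠ φ a :=
  fun h => hy (h ▸ phi_mem φ a)

end H72

end Vale.Agent.Lib.P335.Gr
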