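import Vale.Agent.Lib.P335.helper72.GraphAssembly
import Vale.Agent.Lib.P335.helper30.GraphPair
import Vale.Agent.Lib.P335.helper26.BipUncond

/-!
# P335 (helper72): the graph case with the bipartite leaves discharged

The only remaining hypothesis is the nonnegativity of the sum of the products of disjoint pair
projections (`hpar`), or its sharp form.
-/

namespace Vale.Agent.Lib.P335.Gr

open Finset
open scoped Classical
open Vale.Agent.Lib.P335 Vale.Agent.Lib.P335.Bip Vale.Agent.Lib.P335.Bridge

variable {n : ℕ} {d : Fin n → ℕ}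

/-- `2 H ≤` switch Dirichlet form, unconditionally. -/
theorem H_le_dirichlet (f : Omega n d → ℝ) :
    2 * ∑ p ∈ (univ : Finset (Fin n)).powersetCard 2, (ip f f - ip f (GR p f)) ≤
      ∑ G, ∑ G', if GSwitch G.1 G'.1 then (f G - f G') ^ 2 else 0 :=
  Vale.Agent.Lib.P335.H30.graph_pair_sum Bip.twoRow f

/-- Vertex triples, unconditionally. -/
theorem graph_triple_uncond (T : Finset (Fin n)) (hT : T.card = 3) (f : Omega n d → ℝ) :
    ∑ p ∈ T.powersetCard 2, ip f (GR p f) ≤ 2 * ip f f + ip f (GR T f) :=
  graph_triple Bip.threeRow T hT f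

/-- The switch chain mixes within `n^6` steps for the degree vector `d`, provided the sum of
the products of disjoint pair projections is nonnegative on `Omega n d`. -/
theorem mixing_of_hpar (hn : 4 ≤ n)
    (hpar : ∀ f : Omega n d → ℝ,
      0 ≤ ∑ p ∈ (univ : Finset (Fin n)).powersetCard 2,
          ∑ q ∈ (univ : Finset (Fin n)).powersetCard 2,
            (if Disjoint p q then ip (f - GR p f) (f - GR q f) else 0))
    (t : ℕ) (ht : n ^ 6 ≤ t) (G : Omega n d) : tvDist n d t G ≤ 1 / 4 :=
  graph_mixing_weak hn Bip.threeRow hpar H_le_dirichlet t ht G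

/-- Poincare inequality with constant `2` for the switch graph from `hpar`. -/
theorem poincare_of_hpar
    (hpar : ∀ f : Omega n d → ℝ,
      0 ≤ ∑ p ∈ (univ : Finset (Fin n)).powersetCard 2,
          ∑ q ∈ (univ : Finset (Fin n)).powersetCard 2,
            (if Disjoint p q then ip (f - GR p f) (f - GR q f) else 0))
    (f : Omega n d → ℝ) (hf : ∑ G, f G = 0) :
    2 * ∑ G, f G ^ 2 ≤ ∑ G, ∑ G', if GSwitch G.1 G'.1 then (f G - f G') ^ 2 else 0 := by
  have h1 := graph_poincare Bip.threeRow 0 (le_refl 0) (by
    intro g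
    rw [zero_mul]
    exact hpar g) H_le_dirichlet f hf
  linarith

/-- Poincare inequality with the sharp constant `4` from the sharp form of `hpar`. -/
theorem poincare_of_hparH
    (hpar : ∀ f : Omega n d → ℝ,
      ∑ p ∈ (univ : Finset (Fin n)).powersetCard 2, (ip f f - ip f (GR p f)) ≤
        ∑ p ∈ (univ : Finset (Fin n)).powersetCard 2,
          ∑ q ∈ (univ : Finset (Fin n)).powersetCard 2,
            (if Disjoint p q then ip (f - GR p f) (f - GR q f) else 0))
    (f : Omega n d → ℝ) (hf : ∑ G, f G = 0) :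
    4 * ∑ G, f G ^ 2 ≤ ∑ G, ∑ G', if GSwitch G.1 G'.1 then (f G - f G') ^ 2 else 0 := by
  have h1 := graph_poincare Bip.threeRow 1 (by norm_num) (by
    intro g
    rw [one_mul]
    exact hpar g) H_le_dirichlet f hf
  linarith

end Vale.Agent.Lib.P335.Gr
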