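import Vale.Agent.Lib.P335.helper72.GraphFinal
import Vale.Agent.Lib.P335.helper46.SumStep

/-!
# P335 (helper72): the graph case from the pairwise inequality and the Johnson fibre inequality

The two remaining leaves are stated with the switch `tau` and the correction term `K` of
`helper45/PairDefs`.
-/

namespace Vale.Agent.Lib.P335.Gr

open Finset
open scoped Classical
open Vale.Agent.Lib.P335 Vale.Agent.Lib.P335.Bip Vale.Agent.Lib.P335.Bridge
open Vale.Agent.Lib.P335.H45G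

variable {n : ℕ} {d : Fin n → ℕ}

/-- The switch chain mixes within `n^6` steps for the degree vector `d`, given the pairwise
inequality `hpw` and the Johnson fibre inequality `hJ` on `Omega n d`. -/
theorem mixing_of_pairwise_J (hn : 4 ≤ n)
    (hpw : ∀ x y z w : Fin n, x ≠ y → x ≠ z → x ≠ w → y ≠ z → y ≠ w → z ≠ w →
      ∀ f : Omega n d → ℝ,
        (1 / 4) * ∑ G, (f G - f (tau x y z w G)) ^ 2 - (1 / 2) * K x y z w f
          - (1 / 2) * K z w x y f ≤ ip (f - GR {x, y} f) (f - GR {z, w} f))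
    (hJ : ∀ x y : Fin n, x ≠ y → ∀ f : Omega n d → ℝ,
      ∑ z, ∑ w, (if x ≠ z ∧ x ≠ w ∧ y ≠ z ∧ y ≠ w ∧ z ≠ w then K x y z w f else 0)
        ≤ (1 / 4) * ∑ z, ∑ w, (if x ≠ z ∧ x ≠ w ∧ y ≠ z ∧ y ≠ w ∧ z ≠ w then
            ∑ G, (f G - f (tau x y z w G)) ^ 2 else 0))
    (t : ℕ) (ht : n ^ 6 ≤ t) (G : Omega n d) : tvDist n d t G ≤ 1 / 4 :=
  mixing_of_hpar hn (fun f => Vale.Agent.Lib.P335.H46G.hpar_of_pairwise_J hpw hJ f) t ht G

end Vale.Agent.Lib.P335.Gr
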