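import Vale.Agent.Lib.P335.helper72.GraphFibre

/-!
# P335 (helper72): the fibre of a vertex triple is a three-row margin system

For a vertex triple `T` (the image of `φ : Fin 3 ↪ Fin n`) the class of graphs of `Omega n d`
with the same `G - T` as `G0` is the image of an injective map `tiota` from a three-row margin
system: the real columns are the vertices outside `T`, and one virtual column (placed at `φ 0`)
records the triangle inside `T` (row `a` has a `1` there iff the edge opposite to `a` is absent).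
Conditional expectations `GR q` with `q ⊆ T`, `2 ≤ |q|`, are transported by `tiota`, so the
three-row inequality transfers to vertex triples.
-/

namespace Vale.Agent.Lib.P335.Gr

open Finset
open scoped Classical
open Vale.Agent.Lib.P335 Vale.Agent.Lib.P335.Bip

namespace H72

section triple

variable {n : ℕ} (φ : Fin 3 ↪ Fin n)

lemma fin3_sum (g : Fin 3 → ℕ) (a : Fin 3) : ∑ b, g b = g a + g (a + 1) + g (a + 2) := by
  rw [Fin.sum_univ_three]
  fin_cases a
  · rfl
  · show g 0 + g 1 + g 2 = g 1 + g 2 + g 0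
    ring
  · show g 0 + g 1 + g 2 = g 2 + g 0 + g 1
    ring

/-- The three-row matrix of a graph at the vertex triple `φ`: row `a` contains the neighbours
of `φ a` outside the triple, and the virtual column `φ 0` iff the edge opposite to `φ a` is
absent. -/
noncomputable def tmat (G : SimpleGraph (Fin n)) : Mat 3 n := fun a =>
  univ.filter (fun j => (j ∉ (univ : Finset (Fin 3)).map φ ∧ G.Adj (φ a) j) ∨
    (j = φ 0 ∧ ¬ G.Adj (φ (a + 1)) (φ (a + 2))))

lemma mem_tmat (G : SimpleGraph (Fin n)) (a : Fin 3) (j : Fin n) :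
    j ∈ tmat φ G a ↔ (j ∉ (univ : Finset (Fin 3)).map φ ∧ G.Adj (φ a) j) ∨
      (j = φ 0 ∧ ¬ G.Adj (φ (a + 1)) (φ (a + 2))) := by
  unfold tmat
  simp only [mem_filter, mem_univ, true_and]

/-- The graph with the edges of `G0` outside the triple, the rows of `z` between the triple
and the other vertices, and the triangle read off the virtual column. -/
def temb (G0 : SimpleGraph (Fin n)) (z : Mat 3 n) : SimpleGraph (Fin n) :=
  SimpleGraph.fromRel (fun x y =>
    (x ∉ (univ : Finset (Fin 3)).map φ ∧ y ∉ (univ : Finset (Fin 3)).map φ ∧ G0.Adj x y) ∨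
    (∃ a, x = φ a ∧ y ∉ (univ : Finset (Fin 3)).map φ ∧ y ∈ z a) ∨
    (∃ a, φ 0 ∉ z a ∧ x = φ (a + 1) ∧ y = φ (a + 2)))

lemma temb_adj_out (G0 : SimpleGraph (Fin n)) (z : Mat 3 n) {x y : Fin n}
    (hx : x ∉ (univ : Finset (Fin 3)).map φ) (hy : y ∉ (univ : Finset (Fin 3)).map φ) :
    (temb φ G0 z).Adj x y ↔ G0.Adj x y := by
  unfold temb
  rw [SimpleGraph.fromRel_adj]
  constructor
  · rintro ⟨-, (⟨-, -, h⟩ | ⟨a, rfl, -, -⟩ | ⟨a, -, rfl, -⟩) | (⟨-, -, h⟩ | ⟨a, rfl, -, -⟩ | ⟨a, -, rfl, -⟩)⟩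
    · exact h
    · exact absurd (phi_mem φ a) hx
    · exact absurd (phi_mem φ _) hx
    · exact h.symm
    · exact absurd (phi_mem φ a) hy
    · exact absurd (phi_mem φ _) hy
  · intro h
    exact ⟨G0.ne_of_adj h, Or.inl (Or.inl ⟨hx, hy, h⟩)⟩

lemma temb_adj_row (G0 : SimpleGraph (Fin n)) (z : Mat 3 n) (a : Fin 3) {y : Fin n}
    (hy : y ∉ (univ : Finset (Fin 3)).map φ) :
    (temb φ G0 z).Adj (φ a) y ↔ y ∈ z a := by
  unfold temb
  rw [SimpleGraph.fromRel_adj]
  constructor
  · rintro ⟨-, (⟨h, -, -⟩ | ⟨a', h, -, h'⟩ | ⟨a', -, -, rfl⟩) | (⟨-, h, -⟩ | ⟨a', rfl, -, -⟩ | ⟨a', -, rfl, -⟩)⟩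
    · exact absurd (phi_mem φ a) h
    · rw [φ.injective h]
      exact h'
    · exact absurd (phi_mem φ _) hy
    · exact absurd (phi_mem φ a) h
    · exact absurd (phi_mem φ a') hy
    · exact absurd (phi_mem φ _) hy
  · intro h
    exact ⟨(ne_phi_of_not_mem φ hy a).symm, Or.inl (Or.inr (Or.inl ⟨a, rfl, hy, h⟩))⟩

lemma temb_adj_in (G0 : SimpleGraph (Fin n)) (z : Mat 3 n) (a : Fin 3) :
    (temb φ G0 z).Adj (φ (a + 1)) (φ (a + 2)) ↔ φ 0 ∉ z a := by
  unfold temb
  rw [SimpleGraph.fromRel_adj]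
  constructor
  · rintro ⟨-, (⟨h, -, -⟩ | ⟨a', -, h, -⟩ | ⟨a', h0, h1, -⟩) | (⟨h, -, -⟩ | ⟨a', -, h, -⟩ | ⟨a', -, h1, h2⟩)⟩
    · exact absurd (phi_mem φ _) h
    · exact absurd (phi_mem φ _) h
    · have e : a = a' := add_right_cancel (φ.injective h1)
      rw [e]
      exact h0
    · exact absurd (phi_mem φ _) h
    · exact absurd (phi_mem φ _) h
    · exact absurd (φ.injective h2) (fun e => (by decide : ∀ a a' : Fin 3,
        a + 2 = a' + 1 → a + 1 = a' + 2 → False) a a' (φ.injective h1) e)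
  · intro h
    exact ⟨fun e => (by decide : ∀ a : Fin 3, a + 1 ≠ a + 2) a (φ.injective e),
      Or.inl (Or.inr (Or.inr ⟨a, h, rfl, rfl⟩))⟩

lemma tmat_temb (G0 : SimpleGraph (Fin n)) (z : Mat 3 n) (hz1 : ∀ a, φ 1 ∉ z a)
    (hz2 : ∀ a, φ 2 ∉ z a) : tmat φ (temb φ G0 z) = z := by
  funext a
  ext j
  rw [mem_tmat]
  constructor
  · rintro (⟨hj, h⟩ | ⟨rfl, h⟩)
    · exact (temb_adj_row φ G0 z a hj).mp h
    · rw [temb_adj_in] at h
      exact not_not.mp h
  · intro hj
    by_cases hT : j ∈ (univ : Finset (Fin 3)).map φ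
    · obtain ⟨b, rfl⟩ := (mem_map_univ_iff φ j).mp hT
      rcases (by decide : ∀ b : Fin 3, b = 0 ∨ b = 1 ∨ b = 2) b with rfl | rfl | rfl
      · right
        refine ⟨rfl, ?_⟩
        rw [temb_adj_in]
        exact not_not.mpr hj
      · exact absurd hj (hz1 a)
      · exact absurd hj (hz2 a)
    · left
      exact ⟨hT, (temb_adj_row φ G0 z a hT).mpr hj⟩

lemma temb_tmat (G0 G : SimpleGraph (Fin n))
    (h : gmask ((univ : Finset (Fin 3)).map φ) G = gmask ((univ : Finset (Fin 3)).map φ) G0) :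
    temb φ G0 (tmat φ G) = G := by
  rw [gmask_eq_iff] at h
  ext x y
  by_cases hx : x ∈ (univ : Finset (Fin 3)).map φ
  · obtain ⟨a, rfl⟩ := (mem_map_univ_iff φ x).mp hx
    by_cases hy : y ∈ (univ : Finset (Fin 3)).map φ
    · obtain ⟨b, rfl⟩ := (mem_map_univ_iff φ y).mp hy
      by_cases hab : a = b
      · subst hab
        simp
      · have hin : ∀ c : Fin 3, (temb φ G0 (tmat φ G)).Adj (φ (c + 1)) (φ (c + 2))
            ↔ G.Adj (φ (c + 1)) (φ (c + 2)) := by
          intro c
          rw [temb_adj_in, mem_tmat]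
          constructor
          · intro h1
            by_contra h2
            exact h1 (Or.inr ⟨rfl, h2⟩)
          · rintro h1 (⟨h2, -⟩ | ⟨-, h2⟩)
            · exact h2 (phi_mem φ 0)
            · exact h2 h1
        obtain ⟨c, (⟨rfl, rfl⟩ | ⟨rfl, rfl⟩)⟩ := (by decide : ∀ a b : Fin 3, a ≠ b →
          ∃ c, (a = c + 1 ∧ b = c + 2) ∨ (a = c + 2 ∧ b = c + 1)) a b hab
        · exact hin c
        · rw [SimpleGraph.adj_comm, hin c, SimpleGraph.adj_comm]
    · rw [temb_adj_row φ G0 _ a hy, mem_tmat]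
      constructor
      · rintro (⟨-, h1⟩ | ⟨h1, -⟩)
        · exact h1
        · exact absurd (h1 ▸ phi_mem φ 0) hy
      · intro h1
        exact Or.inl ⟨hy, h1⟩
  · by_cases hy : y ∈ (univ : Finset (Fin 3)).map φ
    · obtain ⟨b, rfl⟩ := (mem_map_univ_iff φ y).mp hy
      rw [SimpleGraph.adj_comm, temb_adj_row φ G0 _ b hx, mem_tmat, SimpleGraph.adj_comm]
      constructor
      · rintro (⟨-, h1⟩ | ⟨h1, -⟩)
        · exact h1
        · exact absurd (h1 ▸ phi_mem φ 0) hx
      · intro h1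
        exact Or.inl ⟨hx, h1⟩
    · rw [temb_adj_out φ G0 _ hx hy]
      exact (h x y hx hy).symm

/-- Degree of a vertex outside the triple. -/
lemma degree_out (G : SimpleGraph (Fin n)) {x : Fin n}
    (hx : x ∉ (univ : Finset (Fin 3)).map φ) :
    G.degree x = (univ.filter (fun y => y ∉ (univ : Finset (Fin 3)).map φ ∧ G.Adj x y)).card
      + colSum (tmat φ G) x := by
  rw [degree_split G ((univ : Finset (Fin 3)).map φ) x, card_filter_map]
  congr 1
  unfold colSum
  congr 1
  ext a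
  simp only [mem_filter, mem_univ, true_and, mem_tmat]
  constructor
  · intro h
    exact Or.inl ⟨hx, h.symm⟩
  · rintro (⟨-, h⟩ | ⟨h, -⟩)
    · exact h.symm
    · exact absurd (h ▸ phi_mem φ 0) hx

lemma phi0_mem_tmat (G : SimpleGraph (Fin n)) (b : Fin 3) :
    φ 0 ∈ tmat φ G b ↔ ¬ G.Adj (φ (b + 1)) (φ (b + 2)) := by
  rw [mem_tmat]
  constructor
  · rintro (⟨h, -⟩ | ⟨-, h⟩)
    · exact absurd (phi_mem φ 0) h
    · exact h
  · intro h
    exact Or.inr ⟨rfl, h⟩

/-- Degree of a vertex of the triple. -/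
lemma degree_in (G : SimpleGraph (Fin n)) (a : Fin 3) :
    G.degree (φ a) + colSum (tmat φ G) (φ 0) = (tmat φ G a).card + 2 := by
  have h1 : G.degree (φ a)
      = (univ.filter (fun y => y ∉ (univ : Finset (Fin 3)).map φ ∧ G.Adj (φ a) y)).card
        + ((if G.Adj (φ a) (φ (a + 1)) then 1 else 0)
          + (if G.Adj (φ a) (φ (a + 2)) then 1 else 0)) := by
    have e : (univ.filter (fun b : Fin 3 => G.Adj (φ a) (φ b))).card
        = (if G.Adj (φ a) (φ (a + 1)) then 1 else 0)
          + (if G.Adj (φ a) (φ (a + 2)) then 1 else 0) := by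
      rw [Finset.card_filter, fin3_sum _ a]
      simp
    rw [degree_split G ((univ : Finset (Fin 3)).map φ) (φ a), card_filter_map, e]
  have h2 : colSum (tmat φ G) (φ 0)
      = (if G.Adj (φ (a + 1)) (φ (a + 2)) then 0 else 1)
        + (if G.Adj (φ a) (φ (a + 2)) then 0 else 1)
        + (if G.Adj (φ a) (φ (a + 1)) then 0 else 1) := by
    unfold colSum
    rw [Finset.card_filter, fin3_sum _ a]
    have e1 : a + 1 + 1 = a + 2 := (by decide : ∀ a : Fin 3, a + 1 + 1 = a + 2) a
    have e2 : a + 1 + 2 = a := (by decide : ∀ a : Fin 3, a + 1 + 2 = a) a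
    have e3 : a + 2 + 1 = a := (by decide : ∀ a : Fin 3, a + 2 + 1 = a) a
    have e4 : a + 2 + 2 = a + 1 := (by decide : ∀ a : Fin 3, a + 2 + 2 = a + 1) a
    simp only [phi0_mem_tmat, e1, e2, e3, e4, ite_not]
    rw [SimpleGraph.adj_comm G (φ (a + 2)) (φ a)]
  have h3 : (tmat φ G a).card
      = (univ.filter (fun y => y ∉ (univ : Finset (Fin 3)).map φ ∧ G.Adj (φ a) y)).card
        + (if G.Adj (φ (a + 1)) (φ (a + 2)) then 0 else 1) := by
    have e : tmat φ G a = (univ.filter (fun y => y ∉ (univ : Finset (Fin 3)).map φ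
        ∧ G.Adj (φ a) y)) ∪ (if G.Adj (φ (a + 1)) (φ (a + 2)) then ∅ else {φ 0}) := by
      ext j
      rw [mem_tmat, mem_union]
      simp only [mem_filter, mem_univ, true_and]
      split_ifs with hc
      · simp [hc]
      · simp [hc]
    rw [e, card_union_of_disjoint]
    · congr 1
      split_ifs <;> simp
    · rw [Finset.disjoint_left]
      intro j hj hj'
      simp only [mem_filter, mem_univ, true_and] at hj
      split_ifs at hj' with hc
      · simp at hj'
      · rw [mem_singleton] at hj'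
        exact hj.1 (hj' ▸ phi_mem φ 0)
  rw [h1, h2, h3]
  split_ifs <;> omega

lemma colSum_tmat_of_ne (G : SimpleGraph (Fin n)) {b : Fin 3} (hb : b ≠ 0) :
    colSum (tmat φ G) (φ b) = 0 := by
  unfold colSum
  rw [Finset.card_eq_zero, Finset.filter_eq_empty_iff]
  intro a _
  rw [mem_tmat]
  rintro (⟨h, -⟩ | ⟨h, -⟩)
  · exact h (phi_mem φ b)
  · exact hb (φ.injective h)

lemma not_mem_of_colSum_zero (z : Mat 3 n) {j : Fin n} (h : colSum z j = 0) (a : Fin 3) :
    j ∉ z a := by
  unfold colSum at h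
  rw [Finset.card_eq_zero, Finset.filter_eq_empty_iff] at h
  exact h (mem_univ a)

variable {d : Fin n → ℕ}

/-- Within a class of graphs with the same `G - T`, the three-row matrices have the same
margins. -/
lemma tmat_margins (G0 G : Omega n d)
    (h : gmask ((univ : Finset (Fin 3)).map φ) G.1 = gmask ((univ : Finset (Fin 3)).map φ) G0.1) :
    (∀ a, (tmat φ G.1 a).card = (tmat φ G0.1 a).card) ∧
      ∀ j, colSum (tmat φ G.1) j = colSum (tmat φ G0.1) j := by
  have hout : ∀ j, j ∉ (univ : Finset (Fin 3)).map φ →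
      colSum (tmat φ G.1) j = colSum (tmat φ G0.1) j := by
    intro j hj
    have e1 := degree_out φ G.1 hj
    have e2 := degree_out φ G0.1 hj
    rw [G.2 j] at e1
    rw [G0.2 j] at e2
    have e3 : (univ.filter (fun y => y ∉ (univ : Finset (Fin 3)).map φ ∧ G.1.Adj j y))
        = (univ.filter (fun y => y ∉ (univ : Finset (Fin 3)).map φ ∧ G0.1.Adj j y)) := by
      apply Finset.filter_congr
      intro y _
      constructor
      · rintro ⟨hy, hadj⟩
        exact ⟨hy, ((gmask_eq_iff _ _ _).mp h j y hj hy).mp hadj⟩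
      · rintro ⟨hy, hadj⟩
        exact ⟨hy, ((gmask_eq_iff _ _ _).mp h j y hj hy).mpr hadj⟩
    rw [e3] at e1
    omega
  -- the virtual column
  have hsum : ∀ G' : Omega n d, ∑ a, d (φ a) + 2 * colSum (tmat φ G'.1) (φ 0)
      = ∑ j ∈ ((univ : Finset (Fin 3)).map φ)ᶜ, colSum (tmat φ G'.1) j + 6 := by
    intro G'
    have e1 : ∀ a, d (φ a) + colSum (tmat φ G'.1) (φ 0) = (tmat φ G'.1 a).card + 2 := by
      intro a
      rw [← G'.2 (φ a)]
      exact degree_in φ G'.1 a
    have e2 := sum_card_rows (tmat φ G'.1)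
    have e3 : ∑ b, colSum (tmat φ G'.1) (φ b) = colSum (tmat φ G'.1) (φ 0) := by
      rw [Fin.sum_univ_three, colSum_tmat_of_ne φ G'.1 (by decide : (1 : Fin 3) ≠ 0),
        colSum_tmat_of_ne φ G'.1 (by decide : (2 : Fin 3) ≠ 0), add_zero, add_zero]
    rw [← Finset.sum_add_sum_compl ((univ : Finset (Fin 3)).map φ), Finset.sum_map, e3] at e2
    rw [Fin.sum_univ_three] at e2 ⊢
    have a0 := e1 0
    have a1 := e1 1
    have a2 := e1 2
    omega
  have hvirt : colSum (tmat φ G.1) (φ 0) = colSum (tmat φ G0.1) (φ 0) := by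
    have e1 := hsum G
    have e2 := hsum G0
    have e3 : ∑ j ∈ ((univ : Finset (Fin 3)).map φ)ᶜ, colSum (tmat φ G.1) j
        = ∑ j ∈ ((univ : Finset (Fin 3)).map φ)ᶜ, colSum (tmat φ G0.1) j := by
      refine Finset.sum_congr rfl (fun j hj => ?_)
      exact hout j (Finset.mem_compl.mp hj)
    rw [e3] at e1
    omega
  constructor
  · intro a
    have e1 := degree_in φ G.1 a
    have e2 := degree_in φ G0.1 a
    rw [G.2 (φ a)] at e1
    rw [G0.2 (φ a)] at e2
    omega
  · intro j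
    by_cases hj : j ∈ (univ : Finset (Fin 3)).map φ
    · obtain ⟨b, rfl⟩ := (mem_map_univ_iff φ j).mp hj
      by_cases hb : b = 0
      · subst hb
        exact hvirt
      · rw [colSum_tmat_of_ne φ G.1 hb, colSum_tmat_of_ne φ G0.1 hb]
    · exact hout j hj

lemma temb_degree (G0 : Omega n d)
    (z : Om 3 n (fun a => (tmat φ G0.1 a).card) (colSum (tmat φ G0.1))) (v : Fin n) :
    (temb φ G0.1 z.1).degree v = d v := by
  have hz1 : ∀ a, φ 1 ∉ z.1 a := fun a => not_mem_of_colSum_zero z.1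
    (by rw [z.2.2, colSum_tmat_of_ne φ G0.1 (by decide : (1 : Fin 3) ≠ 0)]) a
  have hz2 : ∀ a, φ 2 ∉ z.1 a := fun a => not_mem_of_colSum_zero z.1
    (by rw [z.2.2, colSum_tmat_of_ne φ G0.1 (by decide : (2 : Fin 3) ≠ 0)]) a
  have hm : tmat φ (temb φ G0.1 z.1) = z.1 := tmat_temb φ G0.1 z.1 hz1 hz2
  by_cases hv : v ∈ (univ : Finset (Fin 3)).map φ
  · obtain ⟨a, rfl⟩ := (mem_map_univ_iff φ v).mp hv
    have e1 := degree_in φ (temb φ G0.1 z.1) a
    have e2 := degree_in φ G0.1 a
    have hr : (z.1 a).card = (tmat φ G0.1 a).card := z.2.1 a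
    rw [hm, hr, z.2.2 (φ 0)] at e1
    rw [G0.2 (φ a)] at e2
    omega
  · have e1 := degree_out φ (temb φ G0.1 z.1) hv
    have e2 := degree_out φ G0.1 hv
    rw [hm, z.2.2 v] at e1
    rw [G0.2 v] at e2
    have e3 : (univ.filter (fun y => y ∉ (univ : Finset (Fin 3)).map φ
          ∧ (temb φ G0.1 z.1).Adj v y))
        = (univ.filter (fun y => y ∉ (univ : Finset (Fin 3)).map φ ∧ G0.1.Adj v y)) := by
      apply Finset.filter_congr
      intro y _
      constructor
      · rintro ⟨hy, hadj⟩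
        exact ⟨hy, (temb_adj_out φ G0.1 z.1 hv hy).mp hadj⟩
      · rintro ⟨hy, hadj⟩
        exact ⟨hy, (temb_adj_out φ G0.1 z.1 hv hy).mpr hadj⟩
    rw [e3] at e1
    omega

/-- The embedding of the three-row system into the class of `G0`. -/
noncomputable def tiota (G0 : Omega n d)
    (z : Om 3 n (fun a => (tmat φ G0.1 a).card) (colSum (tmat φ G0.1))) : Omega n d :=
  ⟨temb φ G0.1 z.1, temb_degree φ G0 z⟩

lemma tiota_val (G0 : Omega n d)
    (z : Om 3 n (fun a => (tmat φ G0.1 a).card) (colSum (tmat φ G0.1))) :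
    (tiota φ G0 z).1 = temb φ G0.1 z.1 := rfl

lemma tmat_tiota (G0 : Omega n d)
    (z : Om 3 n (fun a => (tmat φ G0.1 a).card) (colSum (tmat φ G0.1))) :
    tmat φ (tiota φ G0 z).1 = z.1 := by
  have hz1 : ∀ a, φ 1 ∉ z.1 a := fun a => not_mem_of_colSum_zero z.1
    (by rw [z.2.2, colSum_tmat_of_ne φ G0.1 (by decide : (1 : Fin 3) ≠ 0)]) a
  have hz2 : ∀ a, φ 2 ∉ z.1 a := fun a => not_mem_of_colSum_zero z.1
    (by rw [z.2.2, colSum_tmat_of_ne φ G0.1 (by decide : (2 : Fin 3) ≠ 0)]) a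
  exact tmat_temb φ G0.1 z.1 hz1 hz2

lemma tiota_injective (G0 : Omega n d) : Function.Injective (tiota φ G0) := by
  intro z z' h
  apply Subtype.ext
  have h1 := congrArg (fun G : Omega n d => tmat φ G.1) h
  simp only [tmat_tiota] at h1
  exact h1

lemma gmask_tiota (G0 : Omega n d)
    (z : Om 3 n (fun a => (tmat φ G0.1 a).card) (colSum (tmat φ G0.1))) :
    gmask ((univ : Finset (Fin 3)).map φ) (tiota φ G0 z).1
      = gmask ((univ : Finset (Fin 3)).map φ) G0.1 := by
  rw [gmask_eq_iff]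
  intro x y hx hy
  rw [tiota_val, temb_adj_out φ G0.1 z.1 hx hy]

lemma exists_tiota_eq (G0 G : Omega n d)
    (h : gmask ((univ : Finset (Fin 3)).map φ) G.1 = gmask ((univ : Finset (Fin 3)).map φ) G0.1) :
    ∃ z, tiota φ G0 z = G := by
  have hm := tmat_margins φ G0 G h
  refine ⟨⟨tmat φ G.1, hm.1, hm.2⟩, ?_⟩
  apply Subtype.ext
  rw [tiota_val]
  exact temb_tmat φ G0.1 G.1 h

lemma gmask_tiota_iff (G0 : Omega n d) (q : Finset (Fin 3)) (hq : 2 ≤ q.card)
    (z z' : Om 3 n (fun a => (tmat φ G0.1 a).card) (colSum (tmat φ G0.1))) :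
    gmask (q.map φ) (tiota φ G0 z').1 = gmask (q.map φ) (tiota φ G0 z).1
      ↔ mask q z'.1 = mask q z.1 := by
  have hz1 : ∀ (w : Om 3 n (fun a => (tmat φ G0.1 a).card) (colSum (tmat φ G0.1))) (a : Fin 3),
      φ 1 ∉ w.1 a := fun w a => not_mem_of_colSum_zero w.1
    (by rw [w.2.2, colSum_tmat_of_ne φ G0.1 (by decide : (1 : Fin 3) ≠ 0)]) a
  have hz2 : ∀ (w : Om 3 n (fun a => (tmat φ G0.1 a).card) (colSum (tmat φ G0.1))) (a : Fin 3),
      φ 2 ∉ w.1 a := fun w a => not_mem_of_colSum_zero w.1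
    (by rw [w.2.2, colSum_tmat_of_ne φ G0.1 (by decide : (2 : Fin 3) ≠ 0)]) a
  have hsub : q.map φ ⊆ (univ : Finset (Fin 3)).map φ := map_subset_map.mpr (subset_univ q)
  rw [gmask_eq_iff, Bip.H45.mask_eq_iff]
  constructor
  · intro h a ha
    have hφa : φ a ∉ q.map φ := fun hmem => ha ((mem_map' φ).mp hmem)
    have hE : ∀ j, j ∉ (univ : Finset (Fin 3)).map φ → (j ∈ z'.1 a ↔ j ∈ z.1 a) := by
      intro j hj
      have h1 := h (φ a) j hφa (fun hmem => hj (hsub hmem))
      rw [tiota_val, tiota_val, temb_adj_row φ G0.1 z'.1 a hj,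
        temb_adj_row φ G0.1 z.1 a hj] at h1
      exact h1
    have herase : (z'.1 a).erase (φ 0) = (z.1 a).erase (φ 0) := by
      ext j
      rw [mem_erase, mem_erase]
      by_cases hj : j ∈ (univ : Finset (Fin 3)).map φ
      · obtain ⟨b, rfl⟩ := (mem_map_univ_iff φ j).mp hj
        rcases (by decide : ∀ b : Fin 3, b = 0 ∨ b = 1 ∨ b = 2) b with rfl | rfl | rfl
        · simp
        · constructor
          · rintro ⟨-, h1⟩
            exact absurd h1 (hz1 z' a)
          · rintro ⟨-, h1⟩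
            exact absurd h1 (hz1 z a)
        · constructor
          · rintro ⟨-, h1⟩
            exact absurd h1 (hz2 z' a)
          · rintro ⟨-, h1⟩
            exact absurd h1 (hz2 z a)
      · rw [hE j hj]
    have hcard : (z'.1 a).card = (z.1 a).card := (z'.2.1 a).trans (z.2.1 a).symm
    have h0 : φ 0 ∈ z'.1 a ↔ φ 0 ∈ z.1 a := by
      constructor
      · intro h1
        by_contra h2
        have e1 := Finset.card_erase_add_one h1
        have e2 := Finset.erase_eq_of_notMem h2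
        rw [herase, e2] at e1
        omega
      · intro h1
        by_contra h2
        have e1 := Finset.card_erase_add_one h1
        have e2 := Finset.erase_eq_of_notMem h2
        rw [← herase, e2] at e1
        omega
    ext j
    by_cases hj : j = φ 0
    · rw [hj]
      exact h0
    · have e1 : j ∈ (z'.1 a).erase (φ 0) ↔ j ∈ (z.1 a).erase (φ 0) := by rw [herase]
      rw [mem_erase, mem_erase] at e1
      constructor
      · intro h1
        exact (e1.mp ⟨hj, h1⟩).2
      · intro h1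
        exact (e1.mpr ⟨hj, h1⟩).2
  · intro h x y hx hy
    rw [tiota_val, tiota_val]
    by_cases hxT : x ∈ (univ : Finset (Fin 3)).map φ
    · obtain ⟨a, rfl⟩ := (mem_map_univ_iff φ x).mp hxT
      have ha : a ∉ q := fun hmem => hx (mem_map_of_mem φ hmem)
      by_cases hyT : y ∈ (univ : Finset (Fin 3)).map φ
      · obtain ⟨b, rfl⟩ := (mem_map_univ_iff φ y).mp hyT
        have hb : b ∉ q := fun hmem => hy (mem_map_of_mem φ hmem)
        have hab : a = b := by
          by_contra hne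
          have hsub2 : ({a, b} : Finset (Fin 3)) ⊆ qᶜ := by
            intro c hc
            rw [mem_insert, mem_singleton] at hc
            rw [mem_compl]
            rcases hc with rfl | rfl
            · exact ha
            · exact hb
          have hc1 := Finset.card_le_card hsub2
          rw [Finset.card_pair hne, Finset.card_compl, Fintype.card_fin] at hc1
          omega
        subst hab
        simp
      · rw [temb_adj_row φ G0.1 z'.1 a hyT, temb_adj_row φ G0.1 z.1 a hyT, h a ha]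
    · by_cases hyT : y ∈ (univ : Finset (Fin 3)).map φ
      · obtain ⟨b, rfl⟩ := (mem_map_univ_iff φ y).mp hyT
        have hb : b ∉ q := fun hmem => hy (mem_map_of_mem φ hmem)
        rw [SimpleGraph.adj_comm, temb_adj_row φ G0.1 z'.1 b hxT,
          SimpleGraph.adj_comm, temb_adj_row φ G0.1 z.1 b hxT, h b hb]
      · rw [temb_adj_out φ G0.1 z'.1 hxT hyT, temb_adj_out φ G0.1 z.1 hxT hyT]

lemma gclass_eq_image (G0 : Omega n d) :
    univ.filter (fun G : Omega n d =>
        gmask ((univ : Finset (Fin 3)).map φ) G.1 = gmask ((univ : Finset (Fin 3)).map φ) G0.1)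
      = univ.image (tiota φ G0) := by
  ext G
  simp only [mem_filter, mem_univ, true_and, mem_image]
  constructor
  · intro h
    exact exists_tiota_eq φ G0 G h
  · rintro ⟨z, rfl⟩
    exact gmask_tiota φ G0 z

lemma sum_gclass (G0 : Omega n d) (F : Omega n d → ℝ) :
    ∑ G ∈ univ.filter (fun G : Omega n d =>
        gmask ((univ : Finset (Fin 3)).map φ) G.1 = gmask ((univ : Finset (Fin 3)).map φ) G0.1),
      F G = ∑ z, F (tiota φ G0 z) := by
  rw [gclass_eq_image, Finset.sum_image]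
  intro z _ z' _ h
  exact tiota_injective φ G0 h

lemma gfibre_tiota (G0 : Omega n d) (q : Finset (Fin 3)) (hq : 2 ≤ q.card)
    (z : Om 3 n (fun a => (tmat φ G0.1 a).card) (colSum (tmat φ G0.1))) :
    univ.filter (fun G : Omega n d =>
        gmask (q.map φ) G.1 = gmask (q.map φ) (tiota φ G0 z).1)
      = (univ.filter (fun z' : Om 3 n (fun a => (tmat φ G0.1 a).card) (colSum (tmat φ G0.1)) =>
          mask q z'.1 = mask q z.1)).image (tiota φ G0) := by
  have hsub : q.map φ ⊆ (univ : Finset (Fin 3)).map φ := map_subset_map.mpr (subset_univ q)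
  ext G
  simp only [mem_filter, mem_univ, true_and, mem_image]
  constructor
  · intro h
    have h1 : gmask ((univ : Finset (Fin 3)).map φ) G.1
        = gmask ((univ : Finset (Fin 3)).map φ) G0.1 := by
      rw [gmask_mono hsub h, gmask_tiota]
    obtain ⟨z', rfl⟩ := exists_tiota_eq φ G0 G h1
    exact ⟨z', (gmask_tiota_iff φ G0 q hq z z').mp h, rfl⟩
  · rintro ⟨z', hz', rfl⟩
    exact (gmask_tiota_iff φ G0 q hq z z').mpr hz'

lemma GR_tiota (G0 : Omega n d) (q : Finset (Fin 3)) (hq : 2 ≤ q.card)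
    (f : Omega n d → ℝ) (z : Om 3 n (fun a => (tmat φ G0.1 a).card) (colSum (tmat φ G0.1)))
    (g : Om 3 n (fun a => (tmat φ G0.1 a).card) (colSum (tmat φ G0.1)) → ℝ)
    (hg : ∀ z', g z' = f (tiota φ G0 z')) :
    GR (q.map φ) f (tiota φ G0 z) = R q g z := by
  have hgf : g = fun z' => f (tiota φ G0 z') := funext hg
  subst hgf
  rw [GR_apply, Bip.H45.R_apply, gfibre_tiota φ G0 q hq, Finset.sum_image,
    Finset.card_image_of_injective _ (tiota_injective φ G0)]
  intro a _ b _ h
  exact tiota_injective φ G0 h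

end triple

end H72

open H72

/-- **Vertex triples.**  The three-row inequality of margin systems transfers to every vertex
triple `T` of the graphs with a prescribed degree vector:
`∑_{p ⊆ T, |p| = 2} R_p ≤ 2 + R_T` in the quadratic form sense, where `R_S = GR S` is the
conditional expectation given `G - S`. -/
theorem graph_triple
    (h3 : ∀ (n : ℕ) (r : Fin 3 → ℕ) (c : Fin n → ℕ) (g : Om 3 n r c → ℝ),
      ∑ q ∈ (univ : Finset (Fin 3)).powersetCard 2, ip g (R q g) ≤ 2 * ip g g + ip g (R univ g))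
    {n : ℕ} {d : Fin n → ℕ} (T : Finset (Fin n)) (hT : T.card = 3) (f : Omega n d → ℝ) :
    ∑ p ∈ T.powersetCard 2, ip f (GR p f) ≤ 2 * ip f f + ip f (GR T f) := by
  obtain ⟨φ, rfl⟩ : ∃ φ : Fin 3 ↪ Fin n, (univ : Finset (Fin 3)).map φ = T :=
    ⟨(T.orderEmbOfFin hT).toEmbedding, map_orderEmbOfFin_univ T hT⟩
  have hL : ∑ p ∈ ((univ : Finset (Fin 3)).map φ).powersetCard 2, ip f (GR p f)
      = ∑ x, ∑ p ∈ ((univ : Finset (Fin 3)).map φ).powersetCard 2, f x * GR p f x := by
    unfold ip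
    rw [Finset.sum_comm]
  have hR : 2 * ip f f + ip f (GR ((univ : Finset (Fin 3)).map φ) f)
      = ∑ x, (2 * (f x * f x) + f x * GR ((univ : Finset (Fin 3)).map φ) f x) := by
    unfold ip
    rw [Finset.sum_add_distrib, Finset.mul_sum]
  rw [hL, hR]
  apply sum_le_sum_of_gclasses ((univ : Finset (Fin 3)).map φ)
  intro G0
  rw [sum_gclass, sum_gclass]
  obtain ⟨g, hg⟩ : ∃ g : Om 3 n (fun a => (tmat φ G0.1 a).card) (colSum (tmat φ G0.1)) → ℝ,
      ∀ z, g z = f (tiota φ G0 z) := ⟨_, fun _ => rfl⟩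
  have key := h3 n (fun a => (tmat φ G0.1 a).card) (colSum (tmat φ G0.1)) g
  unfold ip at key
  rw [Finset.sum_comm] at key
  have e1 : ∀ z, ∑ p ∈ ((univ : Finset (Fin 3)).map φ).powersetCard 2,
        f (tiota φ G0 z) * GR p f (tiota φ G0 z)
      = ∑ q ∈ (univ : Finset (Fin 3)).powersetCard 2, g z * R q g z := by
    intro z
    rw [powersetCard_map, Finset.sum_map]
    refine Finset.sum_congr rfl (fun q hq => ?_)
    simp only [RelEmbedding.coe_toEmbedding, mapEmbedding_apply]
    rw [GR_tiota φ G0 q (le_of_eq (Finset.mem_powersetCard.mp hq).2.symm) f z g hg, hg z]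
  have e2 : ∀ z, 2 * (f (tiota φ G0 z) * f (tiota φ G0 z))
        + f (tiota φ G0 z) * GR ((univ : Finset (Fin 3)).map φ) f (tiota φ G0 z)
      = 2 * (g z * g z) + g z * R univ g z := by
    intro z
    rw [GR_tiota φ G0 univ (by rw [Finset.card_univ, Fintype.card_fin]; omega) f z g hg, hg z]
  simp only [e1, e2]
  rw [Finset.sum_add_distrib, ← Finset.mul_sum]
  exact key

end Vale.Agent.Lib.P335.Gr
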