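import Vale.Agent.Lib.P335.helper26.BipDefs

/-!
# P335 (helper72): switch-connectivity of 0/1 matrices with prescribed margins (Ryser)

Any two matrices of `Om m n r c` are joined by a chain of switches; hence a function on
`Om m n r c` that is invariant under switches is constant.
-/

namespace Vale.Agent.Lib.P335.Bip

open Finset

variable {m n : ℕ}

theorem swMat_apply (x : Mat m n) (i i' : Fin m) (j j' : Fin n) (a : Fin m) :
    swMat x i i' j j' a =
      if a = i' then insert j ((x i').erase j')
      else if a = i then insert j' ((x i).erase j) else x a := by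
  unfold swMat
  rw [Function.update_apply, Function.update_apply]

theorem swMat_self' (x : Mat m n) (i i' : Fin m) (j j' : Fin n) :
    swMat x i i' j j' i' = insert j ((x i').erase j') := by
  rw [swMat_apply, if_pos rfl]

theorem swMat_self (x : Mat m n) {i i' : Fin m} (h : i ≠ i') (j j' : Fin n) :
    swMat x i i' j j' i = insert j' ((x i).erase j) := by
  rw [swMat_apply, if_neg h, if_pos rfl]

theorem swMat_other (x : Mat m n) (i i' : Fin m) (j j' : Fin n) {a : Fin m} (h1 : a ≠ i)
    (h2 : a ≠ i') : swMat x i i' j j' a = x a := by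
  rw [swMat_apply, if_neg h2, if_neg h1]

/-- The column sum as an integer sum of indicators. -/
theorem colSum_eq_sum (x : Mat m n) (l : Fin n) :
    (colSum x l : ℤ) = ∑ a : Fin m, (if l ∈ x a then (1 : ℤ) else 0) := by
  unfold colSum
  rw [Finset.card_filter]
  push_cast
  rfl

/-- A switch preserves the margins. -/
theorem swMat_margins {r : Fin m → ℕ} {c : Fin n → ℕ} {x : Mat m n}
    (hx : (∀ i, (x i).card = r i) ∧ ∀ j, colSum x j = c j) {i i' : Fin m} {j j' : Fin n}
    (hii : i ≠ i') (hjj : j ≠ j') (h1 : j ∈ x i) (h2 : j' ∉ x i) (h3 : j' ∈ x i')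
    (h4 : j ∉ x i') :
    (∀ a, (swMat x i i' j j' a).card = r a) ∧ ∀ l, colSum (swMat x i i' j j') l = c l := by
  constructor
  · intro a
    by_cases ha' : a = i'
    · subst ha'
      rw [swMat_self', Finset.card_insert_of_notMem (fun h => h4 (Finset.mem_of_mem_erase h)),
        Finset.card_erase_of_mem h3, ← hx.1 a]
      have : 0 < (x a).card := Finset.card_pos.mpr ⟨j', h3⟩
      omega
    · by_cases ha : a = i
      · subst ha
        rw [swMat_self x hii, Finset.card_insert_of_notMem
          (fun h => h2 (Finset.mem_of_mem_erase h)), Finset.card_erase_of_mem h1, ← hx.1 a]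
        have : 0 < (x a).card := Finset.card_pos.mpr ⟨j, h1⟩
        omega
      · rw [swMat_other x i i' j j' ha ha']; exact hx.1 a
  · intro l
    rw [← hx.2 l]
    have hz : (colSum (swMat x i i' j j') l : ℤ) = (colSum x l : ℤ) := by
      rw [colSum_eq_sum, colSum_eq_sum, ← sub_eq_zero, ← Finset.sum_sub_distrib]
      rw [Fintype.sum_eq_add i i' hii]
      · rw [swMat_self x hii, swMat_self']
        simp only [Finset.mem_insert, Finset.mem_erase]
        by_cases hlj : l = j
        · subst hlj
          simp [hjj, h1, h4]
        · by_cases hlj' : l = j'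
          · subst hlj'
            simp [h2, h3, hlj]
          · simp [hlj, hlj']
      · intro a ha
        rw [swMat_other x i i' j j' ha.1 ha.2, sub_self]
    exact_mod_cast hz

/-- The switch relation is symmetric. -/
theorem isSwitch_symm {x y : Mat m n} (h : IsSwitch x y) : IsSwitch y x := by
  obtain ⟨i, i', j, j', _, _, hii, hjj, h1, h2, h3, h4, rfl⟩ := h
  refine ⟨i, i', j', j, Finset.mem_univ _, Finset.mem_univ _, hii, hjj.symm, ?_, ?_, ?_, ?_, ?_⟩
  · rw [swMat_self x hii]; exact Finset.mem_insert_self _ _
  · rw [swMat_self x hii]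
    intro h
    rcases Finset.mem_insert.mp h with h | h
    · exact hjj h
    · exact (Finset.mem_erase.mp h).1 rfl
  · rw [swMat_self']; exact Finset.mem_insert_self _ _
  · rw [swMat_self']
    intro h
    rcases Finset.mem_insert.mp h with h | h
    · exact hjj h.symm
    · exact (Finset.mem_erase.mp h).1 rfl
  · funext a
    rw [swMat_apply]
    by_cases ha' : a = i'
    · subst ha'
      rw [if_pos rfl, swMat_self', Finset.erase_insert (fun h => h4 (Finset.mem_of_mem_erase h)),
        Finset.insert_erase h3]
    · rw [if_neg ha']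
      by_cases ha : a = i
      · subst ha
        rw [if_pos rfl, swMat_self x hii,
          Finset.erase_insert (fun h => h2 (Finset.mem_of_mem_erase h)), Finset.insert_erase h1]
      · rw [if_neg ha, swMat_other x i i' j j' ha ha']

/-- Counting step: if `x` and `y` have the same column sums, agree on the rows before `k`,
and row `k` has `j` in `x` only and `j'` in `y` only, then a later row allows a switch of
`j, j'` against row `k` either in `x` or in `y`. -/
theorem exists_row {c : Fin n → ℕ} (x y : Mat m n) (hx : ∀ l, colSum x l = c l)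
    (hy : ∀ l, colSum y l = c l) (k : Fin m) (hlt : ∀ a : Fin m, a < k → x a = y a)
    {j j' : Fin n} (h1 : j ∈ x k) (h2 : j ∉ y k) (h3 : j' ∈ y k) (h4 : j' ∉ x k) :
    (∃ i', k < i' ∧ j' ∈ x i' ∧ j ∉ x i') ∨ (∃ i', k < i' ∧ j ∈ y i' ∧ j' ∉ y i') := by
  by_contra hcon
  rw [not_or] at hcon
  obtain ⟨hA0, hB0⟩ := hcon
  have hA : ∀ i', k < i' → j' ∈ x i' → j ∈ x i' := by
    intro i' e1 e2
    by_contra e3
    exact hA0 ⟨i', e1, e2, e3⟩
  have hB : ∀ i', k < i' → j ∈ y i' → j' ∈ y i' := by
    intro i' e1 e2
    by_contra e3
    exact hB0 ⟨i', e1, e2, e3⟩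
  have hsum : ∑ a : Fin m, (((if j ∈ x a then (1 : ℤ) else 0) - (if j' ∈ x a then (1 : ℤ) else 0))
      - ((if j ∈ y a then (1 : ℤ) else 0) - (if j' ∈ y a then (1 : ℤ) else 0))) = 0 := by
    simp only [Finset.sum_sub_distrib]
    rw [← colSum_eq_sum, ← colSum_eq_sum, ← colSum_eq_sum, ← colSum_eq_sum, hx j, hx j', hy j,
      hy j']
    ring
  have hnn : ∀ a ∈ (Finset.univ : Finset (Fin m)),
      (0 : ℤ) ≤ (((if j ∈ x a then (1 : ℤ) else 0) - (if j' ∈ x a then (1 : ℤ) else 0))
      - ((if j ∈ y a then (1 : ℤ) else 0) - (if j' ∈ y a then (1 : ℤ) else 0))) := by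
    intro a _
    rcases lt_trichotomy a k with h | h | h
    · rw [hlt a h]; simp
    · subst h; simp [h1, h2, h3, h4]
    · have hA' := hA a h
      have hB' := hB a h
      by_cases e1 : j' ∈ x a
      · have e2 := hA' e1
        by_cases e3 : j ∈ y a
        · have e4 := hB' e3
          simp [e1, e2, e3, e4]
        · by_cases e4 : j' ∈ y a <;> simp [e1, e2, e3, e4]
      · by_cases e3 : j ∈ y a
        · have e4 := hB' e3
          by_cases e2 : j ∈ x a <;> simp [e1, e2, e3, e4]
        · by_cases e2 : j ∈ x a <;> by_cases e4 : j' ∈ y a <;> simp [e1, e2, e3, e4]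
  have hk := Finset.single_le_sum hnn (Finset.mem_univ k)
  rw [hsum] at hk
  simp [h1, h2, h3, h4] at hk

/-- Two matrices of `Om m n r c` are connected if a chain of switches leads from one to the
other. -/
def Conn {r : Fin m → ℕ} {c : Fin n → ℕ} (x y : Om m n r c) : Prop :=
  Relation.ReflTransGen (fun a b : Om m n r c => IsSwitch a.1 b.1) x y

theorem conn_of_agree {r : Fin m → ℕ} {c : Fin n → ℕ} :
    ∀ (t k : ℕ), k + t = m → ∀ x y : Om m n r c,
      (∀ a : Fin m, a.val < k → x.1 a = y.1 a) → Conn x y := by
  intro t
  induction t with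
  | zero =>
    intro k hk x y hag
    have : x = y := by
      apply Subtype.ext
      funext a
      exact hag a (by have := a.isLt; omega)
    rw [this]
    exact Relation.ReflTransGen.refl
  | succ t ih =>
    intro k hk
    have hkm : k < m := by omega
    set kk : Fin m := ⟨k, hkm⟩ with hkk
    have key : ∀ s : ℕ, ∀ x y : Om m n r c, (∀ a : Fin m, a.val < k → x.1 a = y.1 a) →
        (x.1 kk \ y.1 kk).card = s → Conn x y := by
      intro s
      induction s with
      | zero =>
        intro x y hag hs
        have hsub : x.1 kk ⊆ y.1 kk :=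
          Finset.sdiff_eq_empty_iff_subset.mp (Finset.card_eq_zero.mp hs)
        have heq : x.1 kk = y.1 kk :=
          Finset.eq_of_subset_of_card_le hsub (by rw [x.2.1 kk, y.2.1 kk])
        apply ih (k + 1) (by omega) x y
        intro a ha
        rcases Nat.lt_succ_iff_lt_or_eq.mp ha with h | h
        · exact hag a h
        · have : a = kk := Fin.ext h
          rw [this]; exact heq
      | succ s ihs =>
        intro x y hag hs
        obtain ⟨j, hj⟩ := Finset.card_pos.mp (by omega : 0 < (x.1 kk \ y.1 kk).card)
        rw [Finset.mem_sdiff] at hj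
        have hcard : (y.1 kk \ x.1 kk).card = (x.1 kk \ y.1 kk).card :=
          Finset.card_sdiff_comm (by rw [x.2.1 kk, y.2.1 kk])
        obtain ⟨j', hj'⟩ := Finset.card_pos.mp (by omega : 0 < (y.1 kk \ x.1 kk).card)
        rw [Finset.mem_sdiff] at hj'
        have hjj : j ≠ j' := fun h => hj'.2 (h ▸ hj.1)
        have hjmem : j ∈ x.1 kk \ y.1 kk := Finset.mem_sdiff.mpr hj
        rcases exists_row x.1 y.1 x.2.2 y.2.2 kk (fun a ha => hag a ha) hj.1 hj.2 hj'.1 hj'.2
          with ⟨i', hki, hA1, hA2⟩ | ⟨i', hki, hB1, hB2⟩
        · have hii : kk ≠ i' := ne_of_lt hki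
          have hsw : IsSwitch x.1 (swMat x.1 kk i' j j') :=
            ⟨kk, i', j, j', Finset.mem_univ _, Finset.mem_univ _, hii, hjj, hj.1, hj'.2, hA1, hA2,
              rfl⟩
          have hag' : ∀ a : Fin m, a.val < k → swMat x.1 kk i' j j' a = y.1 a := by
            intro a ha
            have e1 : a ≠ kk := fun h => by rw [h] at ha; exact lt_irrefl _ ha
            have e2 : a ≠ i' := fun h => by
              rw [h] at ha
              have : kk.val < i'.val := hki
              have : kk.val = k := rfl
              omega
            rw [swMat_other _ _ _ _ _ e1 e2]; exact hag a ha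
          have hs' : (swMat x.1 kk i' j j' kk \ y.1 kk).card = s := by
            rw [swMat_self _ hii]
            have : insert j' ((x.1 kk).erase j) \ y.1 kk = (x.1 kk \ y.1 kk).erase j := by
              ext l
              simp only [Finset.mem_sdiff, Finset.mem_insert, Finset.mem_erase]
              constructor
              · rintro ⟨(rfl | ⟨e1, e2⟩), e3⟩
                · exact absurd hj'.1 e3
                · exact ⟨e1, e2, e3⟩
              · rintro ⟨e1, e2, e3⟩
                exact ⟨Or.inr ⟨e1, e2⟩, e3⟩
            rw [this, Finset.card_erase_of_mem hjmem, hs]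
            rfl
          exact Relation.ReflTransGen.head
            (b := (⟨swMat x.1 kk i' j j', swMat_margins x.2 hii hjj hj.1 hj'.2 hA1 hA2⟩ :
              Om m n r c)) hsw (ihs _ y hag' hs')
        · have hii : kk ≠ i' := ne_of_lt hki
          have hsw : IsSwitch y.1 (swMat y.1 kk i' j' j) :=
            ⟨kk, i', j', j, Finset.mem_univ _, Finset.mem_univ _, hii, hjj.symm, hj'.1, hj.2, hB1,
              hB2, rfl⟩
          have hag' : ∀ a : Fin m, a.val < k → x.1 a = swMat y.1 kk i' j' j a := by
            intro a ha
            have e1 : a ≠ kk := fun h => by rw [h] at ha; exact lt_irrefl _ ha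
            have e2 : a ≠ i' := fun h => by
              rw [h] at ha
              have : kk.val < i'.val := hki
              have : kk.val = k := rfl
              omega
            rw [swMat_other _ _ _ _ _ e1 e2]; exact hag a ha
          have hs' : (x.1 kk \ swMat y.1 kk i' j' j kk).card = s := by
            rw [swMat_self _ hii]
            have : x.1 kk \ insert j ((y.1 kk).erase j') = (x.1 kk \ y.1 kk).erase j := by
              ext l
              simp only [Finset.mem_sdiff, Finset.mem_insert, Finset.mem_erase, not_or, not_and]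
              constructor
              · rintro ⟨e1, e2, e3⟩
                refine ⟨e2, e1, fun e4 => ?_⟩
                exact e3 (fun e5 => hj'.2 (e5 ▸ e1)) e4
              · rintro ⟨e1, e2, e3⟩
                exact ⟨e2, e1, fun _ e4 => e3 e4⟩
            rw [this, Finset.card_erase_of_mem hjmem, hs]
            rfl
          have hc1 : Conn x (⟨swMat y.1 kk i' j' j,
              swMat_margins y.2 hii hjj.symm hj'.1 hj.2 hB1 hB2⟩ : Om m n r c) :=
            ihs x _ hag' hs'
          exact hc1.trans (Relation.ReflTransGen.single (isSwitch_symm hsw))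
    intro x y hag
    exact key _ x y hag rfl

/-- **Ryser's theorem**: any two 0/1 matrices with the same margins are joined by a chain of
switches. -/
theorem ryser {r : Fin m → ℕ} {c : Fin n → ℕ} (x y : Om m n r c) : Conn x y :=
  conn_of_agree m 0 (by omega) x y (fun a ha => absurd ha (Nat.not_lt_zero _))

/-- A function on `Om m n r c` that is invariant under switches is constant. -/
theorem const_of_switch_invariant {r : Fin m → ℕ} {c : Fin n → ℕ} {α : Type*}
    (f : Om m n r c → α) (h : ∀ x y : Om m n r c, IsSwitch x.1 y.1 → f x = f y)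
    (x y : Om m n r c) : f x = f y := by
  have := ryser x y
  unfold Conn at this
  induction this with
  | refl => rfl
  | tail _ hbc ih => exact ih.trans (h _ _ hbc)

/-- The conditional expectation `cexp κ f` only depends on the value of `κ`. -/
theorem cexp_congr {Ω K : Type*} [Fintype Ω] [DecidableEq K] (κ : Ω → K) (f : Ω → ℝ) {x y : Ω}
    (h : κ x = κ y) : cexp κ f x = cexp κ f y := by
  simp only [cexp, LinearMap.coe_mk, AddHom.coe_mk, h]

/-- A switch inside the row set `p` does not change the rows outside `p`. -/
theorem mask_swMat (x : Mat m n) (i i' : Fin m) (j j' : Fin n) (p : Finset (Fin m))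
    (hi : i ∈ p) (hi' : i' ∈ p) : mask p (swMat x i i' j j') = mask p x := by
  funext a
  unfold mask
  by_cases ha : a ∈ p
  · rw [if_pos ha, if_pos ha]
  · rw [if_neg ha, if_neg ha,
      swMat_other x i i' j j' (fun h : a = i => ha (by rw [h]; exact hi))
        (fun h : a = i' => ha (by rw [h]; exact hi'))]

/-- A function fixed by the resampling operators `R p` of all two-element row sets `p` is
constant. -/
theorem const_of_R_fixed {r : Fin m → ℕ} {c : Fin n → ℕ} (f : Om m n r c → ℝ)
    (h : ∀ p : Finset (Fin m), p.card = 2 → R p f = f) (x y : Om m n r c) : f x = f y := by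
  refine const_of_switch_invariant f (fun x y hsw => ?_) x y
  obtain ⟨i, i', j, j', _, _, hii, _, _, _, _, _, hy⟩ := hsw
  have hp := h {i, i'} (Finset.card_pair hii)
  have e1 : R ({i, i'} : Finset (Fin m)) f x = R ({i, i'} : Finset (Fin m)) f y := by
    unfold R
    apply cexp_congr
    show mask {i, i'} x.1 = mask {i, i'} y.1
    rw [hy, mask_swMat x.1 i i' j j' {i, i'} (by simp) (by simp)]
  calc f x = R ({i, i'} : Finset (Fin m)) f x := (congrFun hp x).symm
    _ = R ({i, i'} : Finset (Fin m)) f y := e1
    _ = f y := congrFun hp y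

end Vale.Agent.Lib.P335.Bip
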