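import Vale.Agent.Lib.P335.LowerBound
import Vale.Agent.Lib.P335.helper72.Abstract

/-!
# P335, chain-side glue (helper72), part 2: structure of the switch matrix

The switch matrix of the definitions file is symmetric, stochastic (for `n ≥ 4`) and lazy; a switch
preserves all degrees; and every entry between two distinct graphs related by a switch is at
least `1 / (12 * C(n,4))`.
-/

namespace Vale.Agent.Lib.P335.H72

open Finset
open scoped Classical
open Vale.Agent.Lib.P335

variable {n : ℕ}

theorem pm_subset {S : Finset (Fin n)} {F : Finset (Sym2 (Fin n))} (hF : F ∈ perfMatchings S) :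
    ∀ e ∈ F, e ∈ S.sym2 := by
  unfold perfMatchings at hF
  rw [Finset.mem_filter, Finset.mem_powerset] at hF
  exact fun e he => hF.1 he

theorem pm_not_diag {S : Finset (Fin n)} {F : Finset (Sym2 (Fin n))} (hF : F ∈ perfMatchings S) :
    ∀ e ∈ F, ¬ e.IsDiag := by
  unfold perfMatchings at hF
  rw [Finset.mem_filter] at hF
  exact hF.2.1

theorem pm_unique {S : Finset (Fin n)} {F : Finset (Sym2 (Fin n))} (hF : F ∈ perfMatchings S) :
    ∀ v ∈ S, ∃! e, e ∈ F ∧ v ∈ e := by
  unfold perfMatchings at hF
  rw [Finset.mem_filter] at hF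
  exact hF.2.2

/-- In a perfect matching on `S`, every vertex of `S` has a unique partner. -/
theorem pm_partner {S : Finset (Fin n)} {F : Finset (Sym2 (Fin n))} (hF : F ∈ perfMatchings S)
    {v : Fin n} (hv : v ∈ S) :
    ∃ x, x ≠ v ∧ s(v, x) ∈ F ∧ ∀ w, s(v, w) ∈ F → w = x := by
  obtain ⟨e, ⟨heF, hve⟩, huniq⟩ := pm_unique hF v hv
  refine ⟨Sym2.Mem.other hve, ?_, ?_, ?_⟩
  · intro h
    apply pm_not_diag hF e heF
    rw [← Sym2.other_spec hve, Sym2.mk_isDiag_iff]
    exact h.symm
  · rw [Sym2.other_spec hve]; exact heF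
  · intro w hw
    have := huniq (s(v, w)) ⟨hw, Sym2.mem_mk_left v w⟩
    rw [← Sym2.other_spec hve] at this
    exact Sym2.congr_right.mp this

/-- No edge of a perfect matching on `S` touches a vertex outside `S`. -/
theorem pm_outside {S : Finset (Fin n)} {F : Finset (Sym2 (Fin n))} (hF : F ∈ perfMatchings S)
    {v : Fin n} (hv : v ∉ S) (w : Fin n) : s(v, w) ∉ F := by
  intro h
  have := pm_subset hF _ h
  rw [Finset.mk_mem_sym2_iff] at this
  exact hv this.1

theorem switch_pos {G : SimpleGraph (Fin n)} {F F' : Finset (Sym2 (Fin n))}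
    (h : (∀ e ∈ F, e ∈ G.edgeSet) ∧ (∀ e ∈ F', e ∉ G.edgeSet)) :
    switch G F F' = SimpleGraph.fromEdgeSet
      ((G.edgeSet \ (F : Set (Sym2 (Fin n)))) ∪ (F' : Set (Sym2 (Fin n)))) := by
  unfold switch; rw [if_pos h]

theorem switch_neg {G : SimpleGraph (Fin n)} {F F' : Finset (Sym2 (Fin n))}
    (h : ¬ ((∀ e ∈ F, e ∈ G.edgeSet) ∧ (∀ e ∈ F', e ∉ G.edgeSet))) :
    switch G F F' = G := by
  unfold switch; rw [if_neg h]

/-- The size of the neighbour set does not depend on the `Fintype` instance. -/
theorem card_nf_inst (H : SimpleGraph (Fin n)) (v : Fin n) (i1 i2 : Fintype (H.neighborSet v)) :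
    (@SimpleGraph.neighborFinset _ H v i1).card = (@SimpleGraph.neighborFinset _ H v i2).card := by
  rw [Subsingleton.elim i1 i2]

/-- A switch along two perfect matchings of the same vertex set preserves every degree. -/
theorem switch_degree (G : SimpleGraph (Fin n)) {S : Finset (Fin n)}
    {F F' : Finset (Sym2 (Fin n))} (hF : F ∈ perfMatchings S) (hF' : F' ∈ perfMatchings S)
    (v : Fin n) : (switch G F F').degree v = G.degree v := by
  by_cases h : (∀ e ∈ F, e ∈ G.edgeSet) ∧ (∀ e ∈ F', e ∉ G.edgeSet)
  · rw [switch_pos h]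
    by_cases hv : v ∈ S
    · obtain ⟨x, hxv, hxF, hxu⟩ := pm_partner hF hv
      obtain ⟨y, hyv, hyF, hyu⟩ := pm_partner hF' hv
      have hxadj : G.Adj v x := by
        have := h.1 _ hxF
        rwa [SimpleGraph.mem_edgeSet] at this
      have hyadj : ¬ G.Adj v y := by
        have := h.2 _ hyF
        rwa [SimpleGraph.mem_edgeSet] at this
      have hN : (SimpleGraph.fromEdgeSet ((G.edgeSet \ (F : Set (Sym2 (Fin n)))) ∪
          (F' : Set (Sym2 (Fin n))))).neighborFinset v
          = insert y ((G.neighborFinset v).erase x) := by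
        ext w
        simp only [SimpleGraph.mem_neighborFinset, SimpleGraph.fromEdgeSet_adj, Set.mem_union,
          Set.mem_sdiff, Finset.mem_coe, SimpleGraph.mem_edgeSet, Finset.mem_insert,
          Finset.mem_erase]
        constructor
        · rintro ⟨(⟨hadj, hnF⟩ | hF'w), _⟩
          · right; exact ⟨fun hwx => hnF (hwx ▸ hxF), hadj⟩
          · left; exact hyu w hF'w
        · rintro (rfl | ⟨hwx, hadj⟩)
          · exact ⟨Or.inr hyF, hyv.symm⟩
          · exact ⟨Or.inl ⟨hadj, fun hwF => hwx (hxu w hwF)⟩, G.ne_of_adj hadj⟩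
      have hxmem : x ∈ G.neighborFinset v := by
        rw [SimpleGraph.mem_neighborFinset]; exact hxadj
      have hynot : y ∉ (G.neighborFinset v).erase x := by
        intro hy
        have := Finset.mem_of_mem_erase hy
        rw [SimpleGraph.mem_neighborFinset] at this
        exact hyadj this
      have hcard : ((SimpleGraph.fromEdgeSet ((G.edgeSet \ (F : Set (Sym2 (Fin n)))) ∪
          (F' : Set (Sym2 (Fin n))))).neighborFinset v).card = (G.neighborFinset v).card := by
        rw [hN, Finset.card_insert_of_notMem hynot, Finset.card_erase_of_mem hxmem]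
        have : 0 < (G.neighborFinset v).card := Finset.card_pos.mpr ⟨x, hxmem⟩
        omega
      rw [← SimpleGraph.card_neighborFinset_eq_degree, ← SimpleGraph.card_neighborFinset_eq_degree]
      exact (card_nf_inst _ v _ _).trans (hcard.trans (card_nf_inst _ v _ _))
    · have hN : (SimpleGraph.fromEdgeSet ((G.edgeSet \ (F : Set (Sym2 (Fin n)))) ∪
          (F' : Set (Sym2 (Fin n))))).neighborFinset v = G.neighborFinset v := by
        ext w
        simp only [SimpleGraph.mem_neighborFinset, SimpleGraph.fromEdgeSet_adj, Set.mem_union,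
          Set.mem_sdiff, Finset.mem_coe, SimpleGraph.mem_edgeSet]
        constructor
        · rintro ⟨(⟨hadj, _⟩ | hF'w), _⟩
          · exact hadj
          · exact absurd hF'w (pm_outside hF' hv w)
        · intro hadj
          exact ⟨Or.inl ⟨hadj, pm_outside hF hv w⟩, G.ne_of_adj hadj⟩
      have hcard : ((SimpleGraph.fromEdgeSet ((G.edgeSet \ (F : Set (Sym2 (Fin n)))) ∪
          (F' : Set (Sym2 (Fin n))))).neighborFinset v).card = (G.neighborFinset v).card := by
        rw [hN]
      rw [← SimpleGraph.card_neighborFinset_eq_degree, ← SimpleGraph.card_neighborFinset_eq_degree]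
      exact (card_nf_inst _ v _ _).trans (hcard.trans (card_nf_inst _ v _ _))
  · rw [switch_neg h]

theorem mp_mem {S : Finset (Fin n)} {p : Finset (Sym2 (Fin n)) × Finset (Sym2 (Fin n))}
    (hp : p ∈ matchingPairs S) : p.1 ∈ perfMatchings S ∧ p.2 ∈ perfMatchings S ∧ p.1 ≠ p.2 := by
  unfold matchingPairs at hp
  rw [Finset.mem_filter, Finset.mem_product] at hp
  exact ⟨hp.1.1, hp.1.2, hp.2⟩

theorem mp_swap {S : Finset (Fin n)} {p : Finset (Sym2 (Fin n)) × Finset (Sym2 (Fin n))}
    (hp : p ∈ matchingPairs S) : p.swap ∈ matchingPairs S := by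
  obtain ⟨h1, h2, h3⟩ := mp_mem hp
  unfold matchingPairs
  rw [Finset.mem_filter, Finset.mem_product]
  exact ⟨⟨h2, h1⟩, fun h => h3 h.symm⟩

/-- The switched graph, as an element of `Omega n d`. -/
noncomputable def sw {d : Fin n → ℕ} (G : Omega n d) (S : Finset (Fin n))
    (p : Finset (Sym2 (Fin n)) × Finset (Sym2 (Fin n))) (hp : p ∈ matchingPairs S) :
    Omega n d :=
  ⟨switch G.1 p.1 p.2, fun v => by
    rw [switch_degree G.1 (mp_mem hp).1 (mp_mem hp).2.1 v]; exact G.2 v⟩

theorem sw_val {d : Fin n → ℕ} (G : Omega n d) (S : Finset (Fin n))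
    (p : Finset (Sym2 (Fin n)) × Finset (Sym2 (Fin n))) (hp : p ∈ matchingPairs S) :
    (sw G S p hp).1 = switch G.1 p.1 p.2 := rfl

/-- Every attempted switch lands on exactly one graph of `Omega n d`. -/
theorem sum_card_filter_eq {d : Fin n → ℕ} (G : Omega n d) (S : Finset (Fin n)) :
    ∑ H : Omega n d,
      (((matchingPairs S).filter (fun p => switch G.1 p.1 p.2 = H.1)).card : ℝ)
      = ((matchingPairs S).card : ℝ) := by
  rw [← Nat.cast_sum]
  congr 1
  have key := Finset.card_eq_sum_card_fiberwise (s := matchingPairs S)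
    (t := (Finset.univ : Finset (Omega n d)))
    (f := fun p => if hp : p ∈ matchingPairs S then sw G S p hp else G)
    (fun x _ => Finset.mem_univ _)
  rw [key]
  refine Finset.sum_congr rfl fun H _ => ?_
  congr 1
  refine Finset.filter_congr fun p hp => ?_
  simp only [dif_pos hp]
  constructor
  · intro h; exact Subtype.ext h
  · intro h; rw [← h]; rfl

theorem card_powersetCard_four (n : ℕ) :
    ((Finset.univ : Finset (Fin n)).powersetCard 4).card = n.choose 4 := by
  rw [Finset.card_powersetCard, Finset.card_univ, Fintype.card_fin]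

/-- For `n ≥ 4` the rows of the switch matrix sum to one. -/
theorem switchMatrix_row_sum {d : Fin n → ℕ} (hn : 4 ≤ n) (G : Omega n d) :
    ∑ H : Omega n d, switchMatrix n d G H = 1 := by
  unfold switchMatrix
  rw [Finset.sum_add_distrib, ← Finset.mul_sum, Finset.sum_comm]
  have h1 : ∑ H : Omega n d, (if G = H then (1 / 2 : ℝ) else 0) = 1 / 2 := by
    rw [Finset.sum_ite_eq]
    simp
  have h2 : ∑ S ∈ (univ : Finset (Fin n)).powersetCard 4, ∑ H : Omega n d,
      (1 / ((matchingPairs S).card : ℝ)) *
        (((matchingPairs S).filter (fun p => switch G.1 p.1 p.2 = H.1)).card : ℝ)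
      = (((univ : Finset (Fin n)).powersetCard 4).card : ℝ) := by
    have : ∀ S ∈ (univ : Finset (Fin n)).powersetCard 4, ∑ H : Omega n d,
        (1 / ((matchingPairs S).card : ℝ)) *
          (((matchingPairs S).filter (fun p => switch G.1 p.1 p.2 = H.1)).card : ℝ)
        = 1 := by
      intro S hS
      rw [← Finset.mul_sum, sum_card_filter_eq G S]
      have hc : ((matchingPairs S).card : ℝ) ≠ 0 := by
        exact_mod_cast matchingPairs_card_ne_zero S (Finset.mem_powersetCard.mp hS).2
      field_simp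
    rw [Finset.sum_congr rfl this]
    simp
  rw [h1, h2, card_powersetCard_four]
  have hC : ((n.choose 4 : ℕ) : ℝ) ≠ 0 := by
    have : 0 < n.choose 4 := Nat.choose_pos hn
    exact_mod_cast this.ne'
  field_simp
  norm_num

/-- The switch chain is lazy. -/
theorem switchMatrix_diag_ge {d : Fin n → ℕ} (G : Omega n d) :
    1 / 2 ≤ switchMatrix n d G G := by
  unfold switchMatrix
  rw [if_pos rfl]
  have : 0 ≤ (1 / 2 : ℝ) * (1 / (((univ : Finset (Fin n)).powersetCard 4).card : ℝ)) *
      ∑ S ∈ (univ : Finset (Fin n)).powersetCard 4,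
        (1 / ((matchingPairs S).card : ℝ)) *
          (((matchingPairs S).filter (fun p => switch G.1 p.1 p.2 = G.1)).card : ℝ) := by
    apply mul_nonneg
    · apply mul_nonneg (by norm_num)
      apply div_nonneg (by norm_num) (Nat.cast_nonneg _)
    · apply Finset.sum_nonneg
      intro S _
      apply mul_nonneg
      · apply div_nonneg (by norm_num) (Nat.cast_nonneg _)
      · exact Nat.cast_nonneg _
  linarith

/-- Reversing an effective switch. -/
theorem switch_swap (G G' : SimpleGraph (Fin n)) {S : Finset (Fin n)}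
    {F F' : Finset (Sym2 (Fin n))} (_hF : F ∈ perfMatchings S) (hF' : F' ∈ perfMatchings S)
    (h : switch G F F' = G') (hne : G ≠ G') : switch G' F' F = G := by
  by_cases hc : (∀ e ∈ F, e ∈ G.edgeSet) ∧ (∀ e ∈ F', e ∉ G.edgeSet)
  · rw [switch_pos hc] at h
    have hE' : ∀ e, e ∈ G'.edgeSet ↔
        (e ∈ G.edgeSet ∧ e ∉ F ∨ e ∈ F') ∧ ¬ e.IsDiag := by
      intro e
      rw [← h, SimpleGraph.edgeSet_fromEdgeSet]
      simp only [Set.mem_sdiff, Set.mem_union, Finset.mem_coe, Sym2.mem_diagSet]
    have hc' : (∀ e ∈ F', e ∈ G'.edgeSet) ∧ (∀ e ∈ F, e ∉ G'.edgeSet) := by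
      constructor
      · intro e he
        rw [hE']
        exact ⟨Or.inr he, pm_not_diag hF' e he⟩
      · intro e he
        rw [hE']
        rintro ⟨(⟨_, h2⟩ | h2), _⟩
        · exact h2 he
        · exact hc.2 e h2 (hc.1 e he)
    rw [switch_pos hc']
    ext a b
    rw [SimpleGraph.fromEdgeSet_adj]
    simp only [Set.mem_union, Set.mem_sdiff, Finset.mem_coe]
    constructor
    · rintro ⟨(⟨h1, h2⟩ | h1), _⟩
      · rw [hE'] at h1
        rcases h1.1 with ⟨h3, _⟩ | h3
        · exact (SimpleGraph.mem_edgeSet G).mp h3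
        · exact absurd h3 h2
      · exact (SimpleGraph.mem_edgeSet G).mp (hc.1 _ h1)
    · intro hadj
      refine ⟨?_, G.ne_of_adj hadj⟩
      by_cases hF1 : s(a, b) ∈ F
      · exact Or.inr hF1
      · left
        have hmem : s(a, b) ∈ G.edgeSet := (SimpleGraph.mem_edgeSet G).mpr hadj
        refine ⟨?_, fun h2 => hc.2 _ h2 hmem⟩
        rw [hE']
        refine ⟨Or.inl ⟨hmem, hF1⟩, ?_⟩
        rw [Sym2.mk_isDiag_iff]
        exact G.ne_of_adj hadj
  · rw [switch_neg hc] at h
    exact absurd h hne

/-- The switch matrix is symmetric. -/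
theorem switchMatrix_symm {d : Fin n → ℕ} (G G' : Omega n d) :
    switchMatrix n d G G' = switchMatrix n d G' G := by
  by_cases hGG : G = G'
  · rw [hGG]
  · unfold switchMatrix
    rw [if_neg hGG, if_neg (fun h => hGG h.symm)]
    congr 2
    refine Finset.sum_congr rfl fun S _ => ?_
    congr 2
    refine Finset.card_bij (fun p _ => p.swap) ?_ ?_ ?_
    · intro p hp
      rw [Finset.mem_filter] at hp ⊢
      refine ⟨mp_swap hp.1, ?_⟩
      have hne : G.1 ≠ G'.1 := fun h => hGG (Subtype.ext h)
      exact switch_swap G.1 G'.1 (mp_mem hp.1).1 (mp_mem hp.1).2.1 hp.2 hne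
    · intro p _ q _ h
      exact Prod.swap_injective h
    · intro q hq
      rw [Finset.mem_filter] at hq
      refine ⟨q.swap, ?_, Prod.swap_swap q⟩
      rw [Finset.mem_filter]
      refine ⟨mp_swap hq.1, ?_⟩
      have hne : G'.1 ≠ G.1 := fun h => hGG (Subtype.ext h.symm)
      exact switch_swap G'.1 G.1 (mp_mem hq.1).1 (mp_mem hq.1).2.1 hq.2 hne

/-- Partners in a perfect matching are unique. -/
theorem pm_inj {S : Finset (Fin n)} {F : Finset (Sym2 (Fin n))} (hF : F ∈ perfMatchings S)
    {u w w' : Fin n} (hu : u ∈ S) (h1 : s(u, w) ∈ F) (h2 : s(u, w') ∈ F) : w = w' := by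
  obtain ⟨x, _, _, hxu⟩ := pm_partner hF hu
  rw [hxu w h1, hxu w' h2]

/-- A perfect matching of a four-element set is determined by the partner of one vertex. -/
theorem pm_eq {S : Finset (Fin n)} {a x c e : Fin n}
    (hS : ∀ v, v ∈ S ↔ v = a ∨ v = x ∨ v = c ∨ v = e)
    (hax : a ≠ x) (hac : a ≠ c) (hxc : x ≠ c) (hce : c ≠ e)
    {F : Finset (Sym2 (Fin n))} (hF : F ∈ perfMatchings S) (h : s(a, x) ∈ F) :
    F = {s(a, x), s(c, e)} := by
  have haS : a ∈ S := (hS a).mpr (Or.inl rfl)
  have hxS : x ∈ S := (hS x).mpr (Or.inr (Or.inl rfl))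
  have hcS : c ∈ S := (hS c).mpr (Or.inr (Or.inr (Or.inl rfl)))
  have heS : e ∈ S := (hS e).mpr (Or.inr (Or.inr (Or.inr rfl)))
  have hxa : s(x, a) ∈ F := by rw [Sym2.eq_swap]; exact h
  -- the partner of c is e
  have hceF : s(c, e) ∈ F := by
    obtain ⟨y, hyc, hyF, _⟩ := pm_partner hF hcS
    have hyS : y ∈ S := by
      have := pm_subset hF _ hyF
      rw [Finset.mk_mem_sym2_iff] at this
      exact this.2
    rcases (hS y).mp hyS with rfl | rfl | rfl | rfl
    · have : s(y, c) ∈ F := by rw [Sym2.eq_swap]; exact hyF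
      exact absurd (pm_inj hF haS h this) hxc
    · have : s(y, c) ∈ F := by rw [Sym2.eq_swap]; exact hyF
      exact absurd (pm_inj hF hxS hxa this) hac
    · exact absurd rfl hyc
    · exact hyF
  have hec : s(e, c) ∈ F := by rw [Sym2.eq_swap]; exact hceF
  ext f
  simp only [Finset.mem_insert, Finset.mem_singleton]
  constructor
  · intro hf
    induction f using Sym2.ind with
    | _ u w =>
      have huS : u ∈ S := by
        have := pm_subset hF _ hf
        rw [Finset.mk_mem_sym2_iff] at this
        exact this.1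
      rcases (hS u).mp huS with rfl | rfl | rfl | rfl
      · left; rw [pm_inj hF haS hf h]
      · left; rw [pm_inj hF hxS hf hxa, Sym2.eq_swap]
      · right; rw [pm_inj hF hcS hf hceF]
      · right; rw [pm_inj hF heS hf hec, Sym2.eq_swap]
  · rintro (rfl | rfl)
    · exact h
    · exact hceF

/-- A four-element set has at most three perfect matchings. -/
theorem perfMatchings_card_le {S : Finset (Fin n)} (hS : S.card = 4) :
    (perfMatchings S).card ≤ 3 := by
  obtain ⟨a, b, c, e, hab, hac, hae, hbc, hbe, hce, rfl⟩ := Finset.card_eq_four.mp hS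
  have hsub : perfMatchings ({a, b, c, e} : Finset (Fin n)) ⊆
      {({s(a, b), s(c, e)} : Finset (Sym2 (Fin n))), {s(a, c), s(b, e)}, {s(a, e), s(b, c)}} := by
    intro F hF
    simp only [Finset.mem_insert, Finset.mem_singleton]
    have haS : a ∈ ({a, b, c, e} : Finset (Fin n)) := by simp
    obtain ⟨x, hxa, hxF, _⟩ := pm_partner hF haS
    have hxS : x ∈ ({a, b, c, e} : Finset (Fin n)) := by
      have := pm_subset hF _ hxF
      rw [Finset.mk_mem_sym2_iff] at this
      exact this.2
    simp only [Finset.mem_insert, Finset.mem_singleton] at hxS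
    rcases hxS with rfl | rfl | rfl | rfl
    · exact absurd rfl hxa
    · left
      exact pm_eq (by intro v; simp) hab hac hbc hce hF hxF
    · right; left
      exact pm_eq (by
        intro v; simp only [Finset.mem_insert, Finset.mem_singleton]
        constructor <;> rintro (h | h | h | h) <;> simp [h])
        hac hab hbc.symm hbe hF hxF
    · right; right
      exact pm_eq (by
        intro v; simp only [Finset.mem_insert, Finset.mem_singleton]
        constructor <;> rintro (h | h | h | h) <;> simp [h])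
        hae hab hbe.symm hbc hF hxF
  refine le_trans (Finset.card_le_card hsub) ?_
  refine le_trans (Finset.card_insert_le _ _) ?_
  refine Nat.succ_le_succ (le_trans (Finset.card_insert_le _ _) ?_)
  rw [Finset.card_singleton]

/-- A four-element set has at most six ordered pairs of distinct perfect matchings. -/
theorem matchingPairs_card_le {S : Finset (Fin n)} (hS : S.card = 4) :
    (matchingPairs S).card ≤ 6 := by
  have h1 : matchingPairs S = (perfMatchings S).offDiag := by
    ext p
    unfold matchingPairs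
    rw [Finset.mem_filter, Finset.mem_product, Finset.mem_offDiag]
    tauto
  rw [h1, Finset.offDiag_card]
  have h3 := perfMatchings_card_le hS
  generalize (perfMatchings S).card = k at h3
  interval_cases k <;> norm_num

/-- `G'` differs from `G` and is the result of one attempted switch of the chain on `G`. -/
def swRel {d : Fin n → ℕ} (G G' : Omega n d) : Prop :=
  G ≠ G' ∧ ∃ S ∈ (univ : Finset (Fin n)).powersetCard 4, ∃ p ∈ matchingPairs S,
    switch G.1 p.1 p.2 = G'.1

/-- Entries of the switch matrix between switch-related graphs are at least `1/(12 C(n,4))`. -/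
theorem switchMatrix_ge_of_swRel {d : Fin n → ℕ} {G G' : Omega n d} (h : swRel G G') :
    1 / (12 * (n.choose 4 : ℝ)) ≤ switchMatrix n d G G' := by
  obtain ⟨hne, S, hS, p, hp, hsw⟩ := h
  unfold switchMatrix
  rw [if_neg hne, zero_add, card_powersetCard_four]
  have hScard : S.card = 4 := (Finset.mem_powersetCard.mp hS).2
  have hterm : (1 / 6 : ℝ) ≤ (1 / ((matchingPairs S).card : ℝ)) *
      (((matchingPairs S).filter (fun p => switch G.1 p.1 p.2 = G'.1)).card : ℝ) := by
    have hc6 : ((matchingPairs S).card : ℝ) ≤ 6 := by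
      exact_mod_cast matchingPairs_card_le hScard
    have hc0 : (0 : ℝ) < ((matchingPairs S).card : ℝ) := by
      have : 0 < (matchingPairs S).card := Finset.card_pos.mpr ⟨p, hp⟩
      exact_mod_cast this
    have hf1 : (1 : ℝ) ≤ (((matchingPairs S).filter
        (fun p => switch G.1 p.1 p.2 = G'.1)).card : ℝ) := by
      have : 0 < ((matchingPairs S).filter (fun p => switch G.1 p.1 p.2 = G'.1)).card :=
        Finset.card_pos.mpr ⟨p, Finset.mem_filter.mpr ⟨hp, hsw⟩⟩
      exact_mod_cast this
    have h16 : (1 / 6 : ℝ) ≤ 1 / ((matchingPairs S).card : ℝ) :=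
      one_div_le_one_div_of_le hc0 hc6
    calc (1 / 6 : ℝ) = 1 / 6 * 1 := by ring
      _ ≤ (1 / ((matchingPairs S).card : ℝ)) * (((matchingPairs S).filter
          (fun p => switch G.1 p.1 p.2 = G'.1)).card : ℝ) :=
        mul_le_mul h16 hf1 (by norm_num) (by positivity)
  have hsum : (1 / 6 : ℝ) ≤ ∑ S ∈ (univ : Finset (Fin n)).powersetCard 4,
      (1 / ((matchingPairs S).card : ℝ)) *
        (((matchingPairs S).filter (fun p => switch G.1 p.1 p.2 = G'.1)).card : ℝ) := by
    refine le_trans hterm ?_
    refine Finset.single_le_sum (f := fun S => (1 / ((matchingPairs S).card : ℝ)) *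
        (((matchingPairs S).filter (fun p => switch G.1 p.1 p.2 = G'.1)).card : ℝ)) ?_ hS
    intro T _
    positivity
  have hC : (0 : ℝ) ≤ 1 / 2 * (1 / (n.choose 4 : ℝ)) := by positivity
  calc 1 / (12 * (n.choose 4 : ℝ)) = 1 / 2 * (1 / (n.choose 4 : ℝ)) * (1 / 6) := by
        rw [one_div, one_div, one_div, mul_inv]; ring
    _ ≤ _ := mul_le_mul_of_nonneg_left hsum hC

end Vale.Agent.Lib.P335.H72
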